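import Vale.Agent.P067.Alld.Van.Eq

/-!
P067, part I: the double complex chase.

Chains on pairs (face of `Δ`, frame) modulo the diagonal relations. Columns are controlled by the
stabilisers of the frames, rows by freeness on `Δ`.
-/

namespace Vale.Agent.P067.Alld.Van.Chase

open Finset Sparse

variable {G : Type*} [Group G] {α β : Type*} [DecidableEq α] [DecidableEq β]
  [MulAction G α] [MulAction G β]

lemma img_one (σ : Finset α) : img (1 : G) σ = σ := by simp [img]

lemma img_mul (g h : G) (σ : Finset α) : img (g * h) σ = img g (img h σ) := by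
  simp [img, image_image, Function.comp_def, mul_smul]

lemma card_img (g : G) (σ : Finset α) : (img g σ).card = σ.card :=
  card_image_of_injective _ (MulAction.injective g)

/-- Chains on pairs. -/
abbrev PC (α β : Type*) := (Finset α × Finset β) →₀ ZMod 2

variable (G α β) in
/-- The diagonal relations. -/
noncomputable def PRel : Submodule (ZMod 2) (PC α β) :=
  Submodule.span (ZMod 2) (Set.range fun x : G × (Finset α × Finset β) =>
    Finsupp.single (img x.1 x.2.1, img x.1 x.2.2) 1 + Finsupp.single x.2 1)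

/-- Chains supported on pairs of faces of given sizes. -/
noncomputable def PCs (F : Finset α → Prop) (S : Finset β → Prop) (a b : ℕ) :
    Submodule (ZMod 2) (PC α β) :=
  Finsupp.supported _ _ {x | (F x.1 ∧ x.1.card = a) ∧ S x.2 ∧ x.2.card = b}

/-- Placing a chain over a fixed second component. -/
noncomputable def emb (τ : Finset β) : Ch α →ₗ[ZMod 2] PC α β :=
  Finsupp.lmapDomain _ _ fun σ => (σ, τ)

/-- The boundary in the first component. -/
noncomputable def d1 : PC α β →ₗ[ZMod 2] PC α β :=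
  Finsupp.linearCombination (ZMod 2) fun x => emb x.2 (bd (Finsupp.single x.1 1))

/-- Exchanging the components. -/
noncomputable def sw : PC α β →ₗ[ZMod 2] PC β α := Finsupp.lmapDomain _ _ Prod.swap

/-- The boundary in the second component. -/
noncomputable def d2 : PC α β →ₗ[ZMod 2] PC α β := sw ∘ₗ d1 ∘ₗ sw

variable (G) in
/-- The stabiliser of a vertex set. -/
def stab (τ : Finset β) : Subgroup G where
  carrier := {g | img g τ = τ}
  one_mem' := img_one τ
  mul_mem' {g h} hg hh := show img (g * h) τ = τ by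
    rw [img_mul, show img h τ = τ from hh, show img g τ = τ from hg]
  inv_mem' {g} hg := show img g⁻¹ τ = τ by
    conv_lhs => rw [← show img g τ = τ from hg, ← img_mul, inv_mul_cancel, img_one]

lemma emb_single (σ : Finset α) (τ : Finset β) (c : ZMod 2) :
    emb τ (Finsupp.single σ c) = Finsupp.single (σ, τ) c := by simp [emb]

lemma d1_single (σ : Finset α) (τ : Finset β) :
    d1 (Finsupp.single (σ, τ) 1) = ∑ x ∈ σ, Finsupp.single (σ.erase x, τ) 1 := by
  simp [d1, bd_single, emb_single]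

lemma sw_single (σ : Finset α) (τ : Finset β) (c : ZMod 2) :
    sw (Finsupp.single (σ, τ) c) = Finsupp.single (τ, σ) c := by simp [sw]

lemma sw_sw (x : PC α β) : sw (sw x) = x := by
  suffices h : (sw ∘ₗ sw : PC α β →ₗ[ZMod 2] PC α β) = LinearMap.id from LinearMap.congr_fun h x
  exact Finsupp.lhom_ext' fun y => LinearMap.ext_ring (by obtain ⟨σ, τ⟩ := y; simp [sw])

lemma d2_single (σ : Finset α) (τ : Finset β) :
    d2 (Finsupp.single (σ, τ) 1) = ∑ x ∈ τ, Finsupp.single (σ, τ.erase x) 1 := by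
  simp [d2, sw_single, d1_single]

lemma d1_emb (τ : Finset β) (c : Ch α) : d1 (emb τ c) = emb τ (bd c) := by
  suffices h : d1 ∘ₗ emb τ = emb τ ∘ₗ (bd : Ch α →ₗ[ZMod 2] Ch α) from LinearMap.congr_fun h c
  exact Finsupp.lhom_ext' fun σ => LinearMap.ext_ring (by
    simp [emb_single, d1_single, bd_single])

lemma d1_d2 (x : PC α β) : d1 (d2 x) = d2 (d1 x) := by
  suffices h : d1 ∘ₗ d2 = d2 ∘ₗ (d1 : PC α β →ₗ[ZMod 2] PC α β) from LinearMap.congr_fun h x
  refine Finsupp.lhom_ext' fun y => LinearMap.ext_ring ?_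
  obtain ⟨σ, τ⟩ := y
  simp only [LinearMap.comp_apply, Finsupp.lsingle_apply, d1_single, d2_single, map_sum]
  exact sum_comm

lemma d1_d1 (x : PC α β) : d1 (d1 x) = 0 := by
  suffices h : d1 ∘ₗ d1 = (0 : PC α β →ₗ[ZMod 2] PC α β) from LinearMap.congr_fun h x
  refine Finsupp.lhom_ext' fun y => LinearMap.ext_ring ?_
  obtain ⟨σ, τ⟩ := y
  simp only [LinearMap.comp_apply, Finsupp.lsingle_apply, LinearMap.zero_apply,
    ← emb_single, d1_emb, bd_bd, map_zero]

lemma d2_d2 (x : PC α β) : d2 (d2 x) = 0 := by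
  simp [d2, sw_sw, d1_d1]

lemma zmod2_cases : ∀ c : ZMod 2, c = 0 ∨ c = 1 := by decide

lemma add_mem_of_eq {M : Type*} [AddCommGroup M] [Module (ZMod 2) M] {P : Submodule (ZMod 2) M}
    {x y : M} (h : x + y ∈ P) (hy : y ∈ P) : x ∈ P := (Submodule.add_mem_iff_left P hy).1 h

lemma single_mem_cs {F : Finset α → Prop} {k : ℕ} {σ : Finset α} (h : F σ) (hk : σ.card = k)
    (c : ZMod 2) : Finsupp.single σ c ∈ Cs F k :=
  Finsupp.single_mem_supported _ _ ⟨h, hk⟩

lemma single_mem_pcs {F : Finset α → Prop} {S : Finset β → Prop} {a b : ℕ} {σ : Finset α}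
    {τ : Finset β} (h : F σ) (ha : σ.card = a) (h' : S τ) (hb : τ.card = b) (c : ZMod 2) :
    Finsupp.single (σ, τ) c ∈ PCs F S a b :=
  Finsupp.single_mem_supported _ _ ⟨⟨h, ha⟩, h', hb⟩

lemma cs_induction {F : Finset α → Prop} {k : ℕ} {P : Ch α → Prop} (h0 : P 0)
    (hadd : ∀ x y, P x → P y → P (x + y))
    (hs : ∀ σ, F σ → σ.card = k → P (Finsupp.single σ 1)) {x : Ch α} (hx : x ∈ Cs F k) : P x := by
  rw [Cs, Finsupp.supported_eq_span_single] at hx
  refine Submodule.span_induction ?_ h0 (fun x y _ _ => hadd x y) (fun c x _ hx => ?_) hx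
  · rintro _ ⟨σ, ⟨hσ, hk⟩, rfl⟩; exact hs σ hσ hk
  · rcases zmod2_cases c with rfl | rfl <;> simpa

lemma pcs_induction {F : Finset α → Prop} {S : Finset β → Prop} {a b : ℕ} {P : PC α β → Prop}
    (h0 : P 0) (hadd : ∀ x y, P x → P y → P (x + y))
    (hs : ∀ σ τ, F σ → σ.card = a → S τ → τ.card = b → P (Finsupp.single (σ, τ) 1))
    {x : PC α β} (hx : x ∈ PCs F S a b) : P x := by
  rw [PCs, Finsupp.supported_eq_span_single] at hx
  refine Submodule.span_induction ?_ h0 (fun x y _ _ => hadd x y) (fun c x _ hx => ?_) hx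
  · rintro _ ⟨⟨σ, τ⟩, ⟨⟨hσ, ha⟩, hτ, hb⟩, rfl⟩; exact hs σ τ hσ ha hτ hb
  · rcases zmod2_cases c with rfl | rfl <;> simpa

lemma emb_mem_pcs {F : Finset α → Prop} {S : Finset β → Prop} {a b : ℕ} {τ : Finset β}
    (hτ : S τ) (hb : τ.card = b) {c : Ch α} (hc : c ∈ Cs F a) : emb τ c ∈ PCs F S a b := by
  refine cs_induction (P := fun c => emb τ c ∈ PCs F S a b) (by simp) (fun x y hx hy => ?_)
    (fun σ hσ hk => ?_) hc
  · rw [map_add]; exact add_mem hx hy
  · rw [emb_single]; exact single_mem_pcs hσ hk hτ hb 1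

lemma sw_mem_pcs {F : Finset α → Prop} {S : Finset β → Prop} {a b : ℕ} {x : PC α β}
    (hx : x ∈ PCs F S a b) : sw x ∈ PCs S F b a := by
  refine pcs_induction (P := fun x => sw x ∈ PCs S F b a) (by simp) (fun x y hx hy => ?_)
    (fun σ τ hσ ha hτ hb => ?_) hx
  · rw [map_add]; exact add_mem hx hy
  · rw [sw_single]; exact single_mem_pcs hτ hb hσ ha 1

lemma d1_mem_pcs {F : Finset α → Prop} (hF : ∀ σ τ, τ ⊆ σ → F σ → F τ) {S : Finset β → Prop}
    {a b : ℕ} {x : PC α β} (hx : x ∈ PCs F S (a + 1) b) : d1 x ∈ PCs F S a b := by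
  refine pcs_induction (P := fun x => d1 x ∈ PCs F S a b) (by simp) (fun x y hx hy => ?_)
    (fun σ τ hσ ha hτ hb => ?_) hx
  · rw [map_add]; exact add_mem hx hy
  · rw [d1_single]
    exact Submodule.sum_mem _ fun v hv => single_mem_pcs (hF _ _ (erase_subset v σ) hσ)
      (by rw [card_erase_of_mem hv, ha]; rfl) hτ hb 1

lemma d2_mem_pcs {F : Finset α → Prop} {S : Finset β → Prop} (hS : ∀ σ τ, τ ⊆ σ → S σ → S τ)
    {a b : ℕ} {x : PC α β} (hx : x ∈ PCs F S a (b + 1)) : d2 x ∈ PCs F S a b :=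
  sw_mem_pcs (d1_mem_pcs hS (sw_mem_pcs hx))

lemma span_map_le {M M' : Type*} [AddCommGroup M] [Module (ZMod 2) M] [AddCommGroup M']
    [Module (ZMod 2) M'] {ι : Type*} {g : ι → M} {P : Submodule (ZMod 2) M'}
    (f : M →ₗ[ZMod 2] M') (h : ∀ i, f (g i) ∈ P) {x : M}
    (hx : x ∈ Submodule.span (ZMod 2) (Set.range g)) : f x ∈ P := by
  have : Submodule.span (ZMod 2) (Set.range g) ≤ P.comap f :=
    Submodule.span_le.2 (by rintro _ ⟨i, rfl⟩; exact h i)
  exact this hx

lemma gen_mem_prel (g : G) (σ : Finset α) (τ : Finset β) :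
    Finsupp.single (img g σ, img g τ) 1 + Finsupp.single (σ, τ) 1 ∈ PRel G α β :=
  Submodule.subset_span ⟨(g, σ, τ), rfl⟩

lemma sw_mem_prel {x : PC α β} (hx : x ∈ PRel G α β) : sw x ∈ PRel G β α :=
  span_map_le sw (fun ⟨g, σ, τ⟩ => by simpa [sw_single] using gen_mem_prel g τ σ) hx

lemma d1_mem_prel {x : PC α β} (hx : x ∈ PRel G α β) : d1 x ∈ PRel G α β := by
  refine span_map_le d1 (fun ⟨g, σ, τ⟩ => ?_) hx
  simp only [map_add, d1_single]
  rw [show img g σ = σ.image (g • ·) from rfl,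
    sum_image (fun a _ b _ h => MulAction.injective g h), ← sum_add_distrib]
  refine Submodule.sum_mem _ fun v _ => ?_
  rw [← image_erase (MulAction.injective g)]
  exact gen_mem_prel g _ _

lemma d2_mem_prel {x : PC α β} (hx : x ∈ PRel G α β) : d2 x ∈ PRel G α β :=
  sw_mem_prel (d1_mem_prel (sw_mem_prel hx))

lemma emb_mem_prel {τ : Finset β} {c : Ch α} (hc : c ∈ Rel (stab G τ) α) :
    emb τ c ∈ PRel G α β := by
  refine span_map_le (emb τ) (fun ⟨g, σ⟩ => ?_) hc
  have h := gen_mem_prel (g : G) σ τ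
  rw [show img (g : G) τ = τ from g.2] at h
  simpa [emb_single, img, Subgroup.smul_def] using h

variable (G β) in
/-- The orbit relation on vertex sets. -/
def orel : Setoid (Finset β) where
  r τ τ' := ∃ g : G, img g τ = τ'
  iseqv := ⟨fun τ => ⟨1, img_one τ⟩,
    fun ⟨g, h⟩ => ⟨g⁻¹, by rw [← h, ← img_mul, inv_mul_cancel, img_one]⟩,
    fun ⟨g, h⟩ ⟨g', h'⟩ => ⟨g' * g, by rw [img_mul, h, h']⟩⟩

variable (G) in
/-- The chosen representative of an orbit. -/
noncomputable def rep (τ : Finset β) : Finset β := (Quotient.mk (orel G β) τ).out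

lemma rep_spec (τ : Finset β) : ∃ g : G, img g (rep G τ) = τ :=
  Quotient.exact (Quotient.out_eq (Quotient.mk (orel G β) τ))

variable (G) in
/-- The translation to the representative. -/
noncomputable def trn (τ : Finset β) : G := (rep_spec (G := G) τ).choose

lemma trn_spec (τ : Finset β) : img (trn G τ) (rep G τ) = τ := (rep_spec (G := G) τ).choose_spec

lemma rep_img (g : G) (τ : Finset β) : rep G (img g τ) = rep G τ := by
  unfold rep
  rw [Quotient.sound (show (orel G β).r τ (img g τ) from ⟨g, rfl⟩)]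

lemma img_trn_inv (τ : Finset β) : img (trn G τ)⁻¹ τ = rep G τ := by
  conv_lhs => arg 2; rw [← trn_spec (G := G) τ]
  rw [← img_mul, inv_mul_cancel, img_one]

open Classical in
variable (G) in
/-- The slice of a chain of pairs at a representative. -/
noncomputable def slice (ρ : Finset β) : PC α β →ₗ[ZMod 2] Ch α :=
  Finsupp.linearCombination (ZMod 2) fun x =>
    if rep G x.2 = ρ then Finsupp.single (img (trn G x.2)⁻¹ x.1) 1 else 0

open Classical in
lemma slice_single (ρ : Finset β) (σ : Finset α) (τ : Finset β) :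
    slice G ρ (Finsupp.single (σ, τ) 1) =
      if rep G τ = ρ then Finsupp.single (img (trn G τ)⁻¹ σ) 1 else 0 := by
  simp [slice]

lemma bd_slice (ρ : Finset β) (x : PC α β) : bd (slice G ρ x) = slice G ρ (d1 x) := by
  classical
  suffices h : bd ∘ₗ slice G ρ = (slice G ρ : PC α β →ₗ[ZMod 2] Ch α) ∘ₗ d1 from
    LinearMap.congr_fun h x
  refine Finsupp.lhom_ext' fun y => LinearMap.ext_ring ?_
  obtain ⟨σ, τ⟩ := y
  simp only [LinearMap.comp_apply, Finsupp.lsingle_apply, d1_single, map_sum, slice_single]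
  split_ifs with h
  · rw [bd_single, show img (trn G τ)⁻¹ σ = σ.image ((trn G τ)⁻¹ • ·) from rfl,
      sum_image (fun a _ b _ h => MulAction.injective _ h)]
    exact sum_congr rfl fun v _ => by
      rw [← image_erase (MulAction.injective _)]; rfl
  · simp

lemma slice_mem_rel (ρ : Finset β) {x : PC α β} (hx : x ∈ PRel G α β) :
    slice G ρ x ∈ Rel (stab G ρ) α := by
  classical
  refine span_map_le (slice G ρ) (fun ⟨g, σ, τ⟩ => ?_) hx
  simp only [map_add, slice_single, rep_img]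
  split_ifs with h
  · have hs : (trn G (img g τ))⁻¹ * g * trn G τ ∈ stab G ρ := by
      show img _ ρ = ρ
      rw [← h, img_mul, trn_spec, img_mul]
      conv_rhs => rw [← img_one (G := G) (rep G τ)]
      rw [← inv_mul_cancel (trn G (img g τ)), img_mul]
      congr 1
      have := trn_spec (G := G) (img g τ)
      rw [rep_img] at this
      exact this.symm
    refine Submodule.subset_span ⟨(⟨_, hs⟩, img (trn G τ)⁻¹ σ), ?_⟩
    show Finsupp.single (img ((trn G (img g τ))⁻¹ * g * trn G τ) (img (trn G τ)⁻¹ σ)) 1 + _ = _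
    simp [← img_mul, mul_assoc]
  · simp

lemma slice_mem_cs {F : Finset α → Prop} (hF : ∀ (g : G) σ, F σ → F (img g σ))
    {S : Finset β → Prop} {a b : ℕ} (ρ : Finset β) {x : PC α β} (hx : x ∈ PCs F S a b) :
    slice G ρ x ∈ Cs F a := by
  classical
  refine pcs_induction (P := fun x => slice G ρ x ∈ Cs F a) (by simp) (fun x y hx hy => ?_)
    (fun σ τ hσ ha hτ hb => ?_) hx
  · rw [map_add]; exact add_mem hx hy
  · rw [slice_single]
    split_ifs
    · exact single_mem_cs (hF _ _ hσ) (by rw [card_img, ha]) 1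
    · exact zero_mem _

/-- A chain of pairs is congruent to the sum of its slices. -/
lemma exists_reps {F : Finset α → Prop} {S : Finset β → Prop}
    (hS : ∀ (g : G) τ, S τ → S (img g τ)) {a b : ℕ} {x : PC α β} (hx : x ∈ PCs F S a b) :
    ∃ s : Finset (Finset β), (∀ ρ ∈ s, S ρ ∧ ρ.card = b) ∧
      x + ∑ ρ ∈ s, emb ρ (slice G ρ x) ∈ PRel G α β := by
  classical
  refine ⟨x.support.image fun y => rep G y.2, fun ρ hρ => ?_, ?_⟩
  · obtain ⟨⟨σ, τ⟩, hy, rfl⟩ := mem_image.1 hρ
    obtain ⟨-, hτ, hb⟩ := (Finsupp.mem_supported _ _).1 hx hy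
    have h := trn_spec (G := G) τ
    refine ⟨?_, ?_⟩
    · exact img_trn_inv (G := G) τ ▸ hS (trn G τ)⁻¹ τ hτ
    · rw [← card_img (trn G τ), h]; exact hb
  · suffices h : ∀ (y : PC α β) (s : Finset (Finset β)),
        (∀ z ∈ y.support, rep G z.2 ∈ s) →
          y + ∑ ρ ∈ s, emb ρ (slice G ρ y) ∈ PRel G α β from
      h x _ fun z hz => mem_image_of_mem _ hz
    intro y
    induction y using Finsupp.induction with
    | zero => simp
    | single_add z c w hz hc ih =>
      intro s hs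
      have hc1 : c = 1 := (zmod2_cases c).resolve_left hc
      subst hc1
      have hsup := Finsupp.support_single_add hz (one_ne_zero : (1 : ZMod 2) ≠ 0)
      rw [hsup] at hs
      rw [show Finsupp.single z 1 + w + ∑ ρ ∈ s, emb ρ (slice G ρ (Finsupp.single z 1 + w)) =
          (Finsupp.single z 1 + ∑ ρ ∈ s, emb ρ (slice G ρ (Finsupp.single z 1))) +
            (w + ∑ ρ ∈ s, emb ρ (slice G ρ w)) by
        simp only [map_add, sum_add_distrib]; exact add_add_add_comm _ _ _ _]
      refine add_mem ?_ (ih s fun u hu => hs u (mem_cons_of_mem hu))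
      obtain ⟨σ, τ⟩ := z
      rw [sum_eq_single (rep G τ) (fun ρ _ hne => by simp [slice_single, Ne.symm hne])
        (fun h => absurd (hs _ (mem_cons_self _ _)) h), slice_single, if_pos rfl, emb_single]
      have h := gen_mem_prel (α := α) (trn G τ)⁻¹ σ τ
      rw [img_trn_inv] at h
      rwa [add_comm]

/-- A column is exact when the stabilisers have vanishing homology. -/
lemma column {F : Finset α → Prop} (hF : ∀ (g : G) σ, F σ → F (img g σ))
    {S : Finset β → Prop} (hS : ∀ (g : G) τ, S τ → S (img g τ)) {a b : ℕ}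
    (hVan : ∀ τ, S τ → τ.card = b → Van (stab G τ) F a) {x : PC α β} (hx : x ∈ PCs F S a b)
    (hd : d1 x ∈ PRel G α β) : ∃ w ∈ PCs F S (a + 1) b, x + d1 w ∈ PRel G α β := by
  classical
  obtain ⟨s, hs, hsum⟩ := exists_reps hS hx
  have : ∀ ρ ∈ s, ∃ y ∈ Cs F (a + 1), slice G ρ x + bd y ∈ Rel (stab G ρ) α := fun ρ hρ => by
    have h := hVan ρ (hs ρ hρ).1 (hs ρ hρ).2 _ (slice_mem_cs hF ρ hx)
      (by rw [bd_slice]; exact slice_mem_rel ρ hd)
    obtain ⟨u, hu, r, hr, hur⟩ := Submodule.mem_sup.1 h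
    obtain ⟨y, hy, rfl⟩ := Submodule.mem_map.1 hu
    refine ⟨y, hy, ?_⟩
    rw [← hur, add_comm (bd y) r, add_assoc, add_self_eq_zero', add_zero]
    exact hr
  choose! y hy hyr using this
  refine ⟨∑ ρ ∈ s, emb ρ (y ρ),
    Submodule.sum_mem _ fun ρ hρ => emb_mem_pcs (hs ρ hρ).1 (hs ρ hρ).2 (hy ρ hρ), ?_⟩
  have key : x + d1 (∑ ρ ∈ s, emb ρ (y ρ)) = (x + ∑ ρ ∈ s, emb ρ (slice G ρ x)) +
      ∑ ρ ∈ s, emb ρ (slice G ρ x + bd (y ρ)) := by
    simp only [map_sum, d1_emb, map_add, sum_add_distrib]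
    rw [add_assoc, ← add_assoc (∑ ρ ∈ s, emb ρ (slice G ρ x)) (∑ ρ ∈ s, emb ρ (slice G ρ x)),
      add_self_eq_zero', zero_add]
  rw [key]
  exact add_mem hsum (Submodule.sum_mem _ fun ρ hρ => emb_mem_prel (hyr ρ hρ))

/-- A row is exact because the action is free and the second complex is acyclic. -/
lemma row {F : Finset α → Prop} (hF : ∀ (g : G) σ, F σ → F (img g σ))
    {S : Finset β → Prop} (hS : ∀ (g : G) τ, S τ → S (img g τ)) {a b : ℕ} {D : ℕ}
    (hfree : Free G F D) (ha : 1 ≤ a) (haD : a ≤ D) (hac : Acyc S b) {x : PC α β}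
    (hx : x ∈ PCs F S a b) (hd : d2 x ∈ PRel G α β) :
    ∃ w ∈ PCs F S a (b + 1), x + d2 w ∈ PRel G α β := by
  have hVan : ∀ σ, F σ → σ.card = a → Van (stab G σ) S b := fun σ hσ hσa c hc hbd => by
    have hbot : stab G σ ≤ (⊥ : Subgroup G) := fun g hg =>
      Subgroup.mem_bot.2 (hfree σ hσ (hσa ▸ ha) (hσa ▸ haD) g hg)
    have := mem_rel_bot.1 (rel_mono hbot hbd)
    exact Submodule.mem_sup_left (hac b le_rfl c hc this)
  obtain ⟨w, hw, hwx⟩ := column hS hF hVan (sw_mem_pcs hx)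
    (by have := sw_mem_prel hd; simpa [d2, sw_sw] using this)
  refine ⟨sw w, sw_mem_pcs hw, ?_⟩
  have := sw_mem_prel hwx
  simpa [d2, sw_sw] using this

variable (G) in
/-- The hypotheses of the chase. -/
structure Data (F : Finset α → Prop) (S : Finset β → Prop) (i : ℕ) : Prop where
  hF : Cx G F
  hS : Cx G S
  free : Free G F i
  vert : ∃ v : α, F {v}
  acS : ∀ b, b < i → Acyc S b
  vanS : Van G S i
  col : ∀ a b, 1 ≤ a → 2 ≤ b → a + b = i + 1 → ∀ τ, S τ → τ.card = b → Van (stab G τ) F a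

/-- Chains over the empty face of the second complex. -/
noncomputable def proj0 : PC α β →ₗ[ZMod 2] Ch α :=
  Finsupp.linearCombination (ZMod 2) fun x => if x.2 = ∅ then Finsupp.single x.1 1 else 0

lemma proj0_emb_empty (c : Ch α) : proj0 (emb (∅ : Finset β) c) = c := by
  suffices h : proj0 ∘ₗ emb (∅ : Finset β) = (LinearMap.id : Ch α →ₗ[ZMod 2] Ch α) from
    LinearMap.congr_fun h c
  exact Finsupp.lhom_ext' fun σ => LinearMap.ext_ring (by simp [emb_single, proj0])

lemma proj0_mem_rel {x : PC α β} (hx : x ∈ PRel G α β) : proj0 x ∈ Rel G α := by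
  refine span_map_le proj0 (fun ⟨g, σ, τ⟩ => ?_) hx
  by_cases h : τ = ∅
  · subst h
    simp only [map_add, proj0, Finsupp.linearCombination_single, one_smul, img, image_empty,
      if_pos rfl]
    exact Submodule.subset_span ⟨(g, σ), rfl⟩
  · simp [proj0, h, img]

lemma emb_empty_mem_prel {c : Ch α} (hc : c ∈ Rel G α) :
    emb (∅ : Finset β) c ∈ PRel G α β := by
  refine span_map_le (emb ∅) (fun ⟨g, σ⟩ => ?_) hc
  have h := gen_mem_prel (β := β) g σ (∅ : Finset β)
  simpa [emb_single, img] using h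

lemma d2_emb_one {τ : Finset β} (h : τ.card = 1) (c : Ch α) :
    d2 (emb τ c) = emb (∅ : Finset β) c := by
  obtain ⟨v, rfl⟩ := card_eq_one.1 h
  suffices h : d2 ∘ₗ emb ({v} : Finset β) = (emb (∅ : Finset β) : Ch α →ₗ[ZMod 2] PC α β) from
    LinearMap.congr_fun h c
  exact Finsupp.lhom_ext' fun σ => LinearMap.ext_ring (by simp [emb_single, d2_single])

variable {F : Finset α → Prop} {S : Finset β → Prop} {i : ℕ}

/-- Over the empty face of `Δ` there is a chain with any given boundary. -/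
lemma exists_d1_eq (hv : ∃ v : α, F {v}) {b : ℕ} {x : PC α β} (hx : x ∈ PCs F S 0 b) :
    ∃ w ∈ PCs F S 1 b, d1 w = x := by
  obtain ⟨v, hv⟩ := hv
  refine pcs_induction (P := fun x => ∃ w ∈ PCs F S 1 b, d1 w = x) ⟨0, zero_mem _, map_zero _⟩
    (fun x y ⟨u, hu, hu'⟩ ⟨w, hw, hw'⟩ => ⟨u + w, add_mem hu hw, by rw [map_add, hu', hw']⟩)
    (fun σ τ _ hσ hτ hb => ⟨_, single_mem_pcs hv (card_singleton v) hτ hb 1, ?_⟩) hx
  rw [card_eq_zero.1 hσ]
  simp [d1_single]

/-- The staircase. -/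
theorem staircase (h : Data G F S i) :
    ∀ (e j : ℕ), j + e = i → ∀ y ∈ PCs F S e j, d2 y ∈ PRel G α β → d1 y ∈ PRel G α β →
      ∃ z ∈ PCs F S e (j + 1), y + d2 z ∈ PRel G α β ∧ d1 z ∈ PRel G α β := by
  intro e
  induction e with
  | zero =>
    intro j hj y hy hd2 _
    have hj' : j = i := by omega
    subst hj'
    have hVan : ∀ σ, F σ → σ.card = 0 → Van (stab G σ) S j := fun σ _ hσ0 c hc hbd => by
      have htop : ∀ g : G, g ∈ stab G σ := fun g => by
        show img g σ = σ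
        simp [card_eq_zero.1 hσ0, img]
      have hle : Rel G β ≤ Rel (stab G σ) β := Submodule.span_le.2 (by
        rintro _ ⟨⟨g, τ⟩, rfl⟩
        exact Submodule.subset_span ⟨(⟨g, htop g⟩, τ), rfl⟩)
      exact sup_le_sup le_rfl hle (h.vanS c hc (rel_le _ hbd))
    obtain ⟨w, hw, hyw⟩ := column h.hS.inv h.hF.inv hVan (sw_mem_pcs hy)
      (by have := sw_mem_prel hd2; simpa [d2, sw_sw] using this)
    refine ⟨sw w, sw_mem_pcs hw, by simpa [d2, sw_sw] using sw_mem_prel hyw, ?_⟩
    rw [show d1 (sw w) = 0 from ?_]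
    · exact zero_mem _
    refine pcs_induction (P := fun w => d1 (sw w) = 0) (by simp)
      (fun x y hx hy => by rw [map_add, map_add, hx, hy, add_zero])
      (fun τ σ _ _ _ hσ => ?_) hw
    rw [sw_single, d1_single, card_eq_zero.1 hσ, sum_empty]
  | succ e ih =>
    intro j hj y hy hd2 hd1
    obtain ⟨z, hz, hyz⟩ := row h.hF.inv h.hS.inv h.free (Nat.succ_pos e) (by omega)
      (h.acS j (by omega)) hy hd2
    have hd1z : d1 z ∈ PCs F S e (j + 1) := d1_mem_pcs h.hF.down hz
    have hd2d1 : d2 (d1 z) ∈ PRel G α β := by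
      rw [← d1_d2]
      refine add_mem_of_eq (y := d1 y) ?_ hd1
      rw [← map_add, add_comm]
      exact d1_mem_prel hyz
    obtain ⟨z', hz', hyz', hd1z'⟩ := ih (j + 1) (by omega) _ hd1z hd2d1
      (by rw [d1_d1]; exact zero_mem _)
    obtain ⟨w, hw, hwz'⟩ : ∃ w ∈ PCs F S (e + 1) (j + 2), z' + d1 w ∈ PRel G α β := by
      rcases Nat.eq_zero_or_pos e with rfl | he
      · obtain ⟨w, hw, rfl⟩ := exists_d1_eq h.vert hz'
        exact ⟨w, hw, by rw [add_self_eq_zero']; exact zero_mem _⟩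
      · exact column h.hF.inv h.hS.inv
          (fun τ hτ hb => h.col e (j + 2) he (by omega) (by omega) τ hτ hb) hz' hd1z'
    refine ⟨z + d2 w, add_mem hz (d2_mem_pcs h.hS.down hw), ?_, ?_⟩
    · rwa [map_add, d2_d2, add_zero]
    · have e1 : d1 (z + d2 w) + (d1 z + d2 z') = d2 (z' + d1 w) := by
        rw [map_add, map_add, d1_d2, add_add_add_comm, add_self_eq_zero', zero_add, add_comm]
      refine add_mem_of_eq (y := d1 z + d2 z') ?_ hyz'
      rw [e1]
      exact d2_mem_prel hwz'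

/-- Every cycle is a sum of cycles of vertex stabilisers. -/
theorem main (h : Data G F S i) {c : Ch α} (hc : c ∈ Cs F i) (hbd : bd c ∈ Rel G α) :
    ∃ (s : Finset (Finset β)) (z : Finset β → Ch α),
      (∀ τ ∈ s, S τ ∧ τ.card = 1 ∧ z τ ∈ Cs F i ∧ bd (z τ) ∈ Rel (stab G τ) α) ∧
      c + ∑ τ ∈ s, z τ ∈ Rel G α := by
  obtain ⟨x, hx, hcx, hd⟩ := staircase h i 0 (by omega) (emb ∅ c)
    (emb_mem_pcs h.hS.empty card_empty hc)
    (by
      suffices h0 : d2 ∘ₗ emb (∅ : Finset β) = (0 : Ch α →ₗ[ZMod 2] PC α β) by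
        rw [show d2 (emb (∅ : Finset β) c) = 0 from LinearMap.congr_fun h0 c]; exact zero_mem _
      exact Finsupp.lhom_ext' fun σ => LinearMap.ext_ring (by simp [emb_single, d2_single]))
    (by rw [d1_emb]; exact emb_empty_mem_prel hbd)
  obtain ⟨s, hs, hsum⟩ := exists_reps h.hS.inv hx
  refine ⟨s, fun τ => slice G τ x, fun τ hτ => ⟨(hs τ hτ).1, (hs τ hτ).2,
    slice_mem_cs h.hF.inv τ hx, by rw [bd_slice]; exact slice_mem_rel τ hd⟩, ?_⟩
  have h2 := add_mem hcx (d2_mem_prel hsum)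
  rw [map_add, add_assoc, ← add_assoc (d2 x) (d2 x), add_self_eq_zero', zero_add, map_sum,
    sum_congr rfl fun τ hτ => d2_emb_one (hs τ hτ).2 _, ← map_sum, ← map_add] at h2
  simpa [proj0_emb_empty] using proj0_mem_rel h2

end Vale.Agent.P067.Alld.Van.Chase
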