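import Vale.Agent.P067.Alld.Van.Conj
import Vale.Agent.P067.Alld.Van.Chase

/-!
P067, part I: the stabiliser of a frame is a smaller congruence kernel.
-/

namespace Vale.Agent.P067.Alld.Van

open Finset

variable {p n m : ℕ} [Fact p.Prime]

/-- Freeness passes to subgroups. -/
theorem free_restrict {G α : Type} [Group G] [DecidableEq α] [MulAction G α] {F : Finset α → Prop}
    {D : ℕ} (h : Free G F D) (S : Subgroup G) : Free S F D :=
  fun σ hσ h1 h2 g hg => Subtype.ext (h σ hσ h1 h2 g.1 hg)

/-- The block embedding conjugated by `g`, between the congruence kernels. -/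
noncomputable def blkConj {b : ℕ} (hb : b + 3 ≤ n) (hm : 1 ≤ m) (g : SLA p n) :
    NGam p (n - b) m →* NGam p n m where
  toFun h := ⟨⟨g * blk (Nat.sub_le n b) h.1.1 * g⁻¹, ker_le_gam (by omega) hm
      ((inferInstance : (Ker p n m).Normal).conj_mem _
        (blk_mem_ker _ ((mem_nGam_iff h.1).1 h.2)) g)⟩,
    (mem_nGam_iff _).2 ((inferInstance : (Ker p n m).Normal).conj_mem _
      (blk_mem_ker _ ((mem_nGam_iff h.1).1 h.2)) g)⟩
  map_one' := Subtype.ext (Subtype.ext (by simp))
  map_mul' x y := Subtype.ext (Subtype.ext (by simp [map_mul, mul_assoc]))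

theorem van_stab {D a b : ℕ} (C : Ctx p n m D) (ha : a ≤ D) (hb : b + 3 ≤ n)
    (hac : Acyc (IsFace (hInf p (n - b))) (D + 1))
    (hprev : Van (NGam p (n - b) m) (IsFace (hInf p (n - b))) a)
    {τ : Finset (FPair (Polynomial (ZMod p)) n)} (hτ : IsFrame τ) (hτb : τ.card = b) :
    Van (Chase.stab (NGam p n m) τ) (IsFace (hInf p n)) a := by
  classical
  obtain ⟨g, hg⟩ := exists_smul_stdFrame hτ hτb
  have hm : 1 ≤ m := by have := C.hm; omega
  set σ := stdFrame (Polynomial (ZMod p)) n b with hσ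
  have himg : ∀ (u v : SLA p n) (s : Finset (FPair (Polynomial (ZMod p)) n)),
      (s.image (v • ·)).image (u • ·) = s.image ((u * v) • ·) := fun u v s => by
    simp [image_image, Function.comp_def, mul_smul]
  have hcore : ∀ h : SLA p n, τ.image (h • ·) = τ ↔ σ.image ((g⁻¹ * h * g) • ·) = σ := by
    intro h
    rw [hg, himg]
    constructor
    · intro e
      have e' := congrArg (Finset.image (g⁻¹ • ·)) e
      rw [himg, himg, inv_mul_cancel, ← mul_assoc] at e'
      simpa using e'
    · intro e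
      have e' := congrArg (Finset.image (g • ·)) e
      rwa [himg, show g * (g⁻¹ * h * g) = h * g by simp [mul_assoc]] at e'
  have hmem : ∀ h, blkConj hb hm g h ∈ Chase.stab (NGam p n m) τ := by
    intro h
    show τ.image ((g * blk (Nat.sub_le n b) h.1.1 * g⁻¹) • ·) = τ
    rw [hcore, show g⁻¹ * (g * blk (Nat.sub_le n b) h.1.1 * g⁻¹) * g = blk (Nat.sub_le n b) h.1.1 by
      simp [mul_assoc]]
    exact (stab_stdFrame hm (by omega) (blk_mem_ker _ ((mem_nGam_iff h.1).1 h.2))).2
      ⟨_, (mem_nGam_iff h.1).1 h.2, rfl⟩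
  let e : NGam p (n - b) m →* Chase.stab (NGam p n m) τ :=
    (blkConj hb hm g).codRestrict _ hmem
  have hbij : Function.Bijective e := by
    constructor
    · intro x y hxy
      have h1 : g * blk (Nat.sub_le n b) x.1.1 * g⁻¹ = g * blk (Nat.sub_le n b) y.1.1 * g⁻¹ :=
        congrArg (fun z : Chase.stab (NGam p n m) τ => z.1.1.1) hxy
      exact Subtype.ext (Subtype.ext (blk_injective _ (mul_left_cancel (mul_right_cancel h1))))
    · rintro ⟨⟨⟨h, hΓ⟩, hN⟩, hst⟩
      have hk : h ∈ Ker p n m := (mem_nGam_iff _).1 hN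
      have hk' : g⁻¹ * h * g ∈ Ker p n m := by
        simpa using (inferInstance : (Ker p n m).Normal).conj_mem _ hk g⁻¹
      have hst' : τ.image (h • ·) = τ := hst
      obtain ⟨u, hu, hu'⟩ := (stab_stdFrame hm (by omega) hk').1 ((hcore h).1 hst')
      refine ⟨⟨⟨u, ker_le_gam (by omega) hm hu⟩, (mem_nGam_iff _).2 hu⟩,
        Subtype.ext (Subtype.ext (Subtype.ext ?_))⟩
      show g * blk (Nat.sub_le n b) u * g⁻¹ = h
      rw [← hu']
      simp [mul_assoc]
  exact van_congr (MulEquiv.ofBijective e hbij) (cx_restrict cx_delta _)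
    (cx_restrict (cx_restrict cx_delta _) _) (free_delta C.hm _)
    (free_restrict (free_delta C.hm _) _) hac C.ac ha hprev

end Vale.Agent.P067.Alld.Van
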