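import Vale.Agent.P067.Alld.Stmt

/-!
P067, part I (vanishing): definitions.

A group acts on the vertices. Relations are kept as a submodule of the chains, so no quotient complex
is ever formed: `Van G F k` says that a chain on `k`-vertex faces whose boundary is a relation is a
boundary modulo relations.
-/

namespace Vale.Agent.P067.Alld.Van

open Finset Sparse

section

variable {G : Type*} [Group G] {α : Type*} [DecidableEq α] [MulAction G α]

/-- The translate of a vertex set. -/
def img (g : G) (σ : Finset α) : Finset α := σ.image fun a => g • a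

/-- Translation of chains. -/
noncomputable def act (g : G) : Ch α →ₗ[ZMod 2] Ch α := Finsupp.lmapDomain _ _ (img g)

variable (G α) in
/-- The relations `g σ = σ`. -/
noncomputable def Rel : Submodule (ZMod 2) (Ch α) :=
  Submodule.span (ZMod 2)
    (Set.range fun x : G × Finset α => Finsupp.single (img x.1 x.2) 1 + Finsupp.single x.2 1)

/-- Chains on the faces with `k` vertices. -/
noncomputable def Cs (F : Finset α → Prop) (k : ℕ) : Submodule (ZMod 2) (Ch α) :=
  Finsupp.supported _ _ {σ | F σ ∧ σ.card = k}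

variable (G α) in
/-- Boundaries modulo relations. -/
noncomputable def Bd (F : Finset α → Prop) (k : ℕ) : Submodule (ZMod 2) (Ch α) :=
  (Cs F (k + 1)).map bd ⊔ Rel G α

variable (G) in
/-- The homology of the orbit complex vanishes in cardinality `k`. -/
def Van (F : Finset α → Prop) (k : ℕ) : Prop :=
  ∀ c ∈ Cs F k, bd c ∈ Rel G α → c ∈ Bd G α F k

/-- Acyclicity through cardinality `D`. -/
def Acyc (F : Finset α → Prop) (D : ℕ) : Prop :=
  ∀ k ≤ D, ∀ c ∈ Cs F k, bd c = 0 → c ∈ (Cs F (k + 1)).map bd

variable (G) in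
/-- An invariant complex. -/
structure Cx (F : Finset α → Prop) : Prop where
  inv : ∀ (g : G) σ, F σ → F (img g σ)
  down : ∀ σ τ, τ ⊆ σ → F σ → F τ
  empty : F ∅

variable (G) in
/-- Freeness on the nonempty faces with at most `D` vertices. -/
def Free (F : Finset α → Prop) (D : ℕ) : Prop :=
  ∀ σ, F σ → 1 ≤ σ.card → σ.card ≤ D → ∀ g : G, img g σ = σ → g = 1

/-- Every finite subset lies in a finite subgroup of odd order. -/
def LFOdd (A : Subgroup G) : Prop :=
  ∀ s : Finset G, (∀ x ∈ s, x ∈ A) →
    ∃ B : Subgroup G, B ≤ A ∧ (∀ x ∈ s, x ∈ B) ∧ Finite B ∧ Odd (Nat.card B)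

end

section

variable {α β : Type*} [DecidableEq α] [DecidableEq β] {G G' : Type*} [Group G] [Group G']
  [MulAction G α] [MulAction G' β]

/-- Equivariance modulo the relations of `A`. -/
def EqMod (A : Subgroup G') (θ : G →* G') (f : Ch α →ₗ[ZMod 2] Ch β) : Prop :=
  ∀ g x, f (act g x) - act (θ g) (f x) ∈ Rel A β

/-- An augmentation preserving chain map in cardinalities at most `D`. -/
structure IsMap (A : Subgroup G') (θ : G →* G') (F : Finset α → Prop) (F' : Finset β → Prop)
    (D : ℕ) (f : Ch α →ₗ[ZMod 2] Ch β) : Prop where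
  equiv : EqMod A θ f
  mem : ∀ k ≤ D, ∀ x ∈ Cs F k, f x ∈ Cs F' k
  comm : ∀ k ≤ D, ∀ x ∈ Cs F k, bd (f x) = f (bd x)
  empty : f (Finsupp.single ∅ 1) = Finsupp.single ∅ 1

end

end Vale.Agent.P067.Alld.Van
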