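import Vale.Agent.P067.Alld.A.Quot
import Vale.Agent.P067.Alld.Van.Defs
import Vale.Agent.P067.Alld.E.Dual

/-!
P067, part I: facts about `Δ`, the kernel `N_m` and the projection `Δ → K_m`.
-/

namespace Vale.Agent.P067.Alld.Van

open Finset Sparse

set_option linter.unusedSectionVars false

variable (p n m : ℕ) [Fact p.Prime]

noncomputable instance decEqDelta : DecidableEq (Vert (hInf p n)) := Classical.decEq _

/-- The kernel `N_m`. -/
noncomputable abbrev NGam : Subgroup (GamInf p n) := (toGm p n m).ker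

theorem toGm_mem_hyp {g : GamInf p n} {l : Fin n} (hg : g ∈ hInf p n l) :
    toGm p n m g ∈ hyp (ZMod p) n (Rm p m) (tm p m) l :=
  Subgroup.mem_subgroupOf.2 ((map_loc (redm p m) (redm_X p m) l).le
    (Subgroup.mem_map_of_mem _ (Subgroup.mem_subgroupOf.1 hg)))

/-- The projection of `Δ` to `K_m`. -/
noncomputable def proj : Vert (hInf p n) → KV p n m := fun v =>
  Quotient.liftOn' v.2 (fun g => pt (hyp (ZMod p) n (Rm p m) (tm p m)) (toGm p n m g) v.1)
    fun a b hab => by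
      have h := toGm_mem_hyp p n m (QuotientGroup.leftRel_apply.1 hab)
      rw [map_mul, map_inv] at h
      exact Sigma.ext rfl (heq_of_eq (QuotientGroup.eq.2 h))

variable {p n m}

theorem proj_pt (g : GamInf p n) (l : Fin n) :
    proj p n m (pt (hInf p n) g l) = pt (hyp (ZMod p) n (Rm p m) (tm p m)) (toGm p n m g) l := rfl

theorem smul_pt (h g : GamInf p n) (l : Fin n) :
    h • pt (hInf p n) g l = pt (hInf p n) (h * g) l := rfl

theorem cx_delta : Cx (GamInf p n) (IsFace (hInf p n)) := by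
  refine ⟨fun h σ hσ => ?_, fun σ τ hτ hσ => ?_, ⟨1, by simp⟩⟩
  · obtain ⟨g, hg⟩ := hσ
    refine ⟨h * g, fun v hv => ?_⟩
    obtain ⟨w, hw, rfl⟩ := mem_image.1 hv
    rw [hg w hw, smul_pt]
    rfl
  · obtain ⟨g, hg⟩ := hσ
    exact ⟨g, fun v hv => hg v (hτ hv)⟩

theorem cx_restrict {G : Type*} [Group G] {α : Type*} [DecidableEq α] [MulAction G α]
    {F : Finset α → Prop} (hF : Cx G F) (S : Subgroup G) : Cx S F :=
  ⟨fun g σ hσ => hF.inv (g : G) σ hσ, hF.down, hF.empty⟩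

theorem acyc_delta (h : DeltaAcyclicStmt) (d : ℕ) : ∃ n₀, ∀ n, n₀ ≤ n → ∃ p₀,
    ∀ (p : ℕ) [Fact p.Prime], p₀ ≤ p → Acyc (IsFace (hInf p n)) d := by
  obtain ⟨n₀, hn₀⟩ := h d
  refine ⟨n₀, fun n hn => ?_⟩
  obtain ⟨p₀, hp₀⟩ := hn₀ n hn
  refine ⟨p₀, fun p _ hp k hk c hc hbd => ?_⟩
  obtain ⟨y, hy, hyc⟩ := hp₀ p hp (decEqDelta p n) k hk c
    (fun σ hσ => (Finsupp.mem_supported _ _).1 hc hσ) hbd
  exact ⟨y, (Finsupp.mem_supported _ _).2 fun σ hσ => hy σ hσ, hyc⟩

theorem free_delta (hm : 2 ≤ m) (D : ℕ) : Free (NGam p n m) (IsFace (hInf p n)) D := by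
  intro σ hσ h1 _ h himg
  obtain ⟨g, hg⟩ := hσ
  obtain ⟨v, hv⟩ := card_pos.1 h1
  have hmem : h • v ∈ σ := himg ▸ mem_image_of_mem _ hv
  have e : (h : GamInf p n) • v = v := (hg _ hmem).trans (hg v hv).symm
  rw [hg v hv, smul_pt] at e
  have hl : g⁻¹ * ((h : GamInf p n) * g) ∈ hInf p n v.1 :=
    QuotientGroup.eq.1 (eq_of_heq (Sigma.ext_iff.1 e.symm).2)
  have hk : toGm p n m (g⁻¹ * ((h : GamInf p n) * g)) = toGm p n m 1 := by
    rw [map_mul, map_mul, map_inv, (MonoidHom.mem_ker).1 h.2, one_mul, inv_mul_cancel, map_one]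
  have h1' : g⁻¹ * ((h : GamInf p n) * g) = 1 := gamMap_injOn (redm p m) (redm_X p m)
    (tm_ne_zero p hm) (singleton_nonempty v.1)
    (mem_inter.2 fun l hl' => (mem_singleton.1 hl') ▸ hl) (one_mem _) hk
  exact Subtype.ext (mul_eq_right.1 (inv_mul_eq_one.1 h1').symm)

theorem proj_smul (h : NGam p n m) (v : Vert (hInf p n)) : proj p n m (h • v) = proj p n m v := by
  obtain ⟨l, q⟩ := v
  induction q using QuotientGroup.induction_on with
  | H g =>
    show proj p n m ((h : GamInf p n) • pt (hInf p n) g l) = proj p n m (pt (hInf p n) g l)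
    rw [smul_pt, proj_pt, proj_pt, map_mul, (MonoidHom.mem_ker).1 h.2, one_mul]

theorem proj_fst (v : Vert (hInf p n)) : (proj p n m v).1 = v.1 := by
  obtain ⟨l, q⟩ := v
  induction q using QuotientGroup.induction_on with
  | H g => rfl

theorem proj_injOn {σ : Finset (Vert (hInf p n))} (hσ : IsFace (hInf p n) σ) :
    Set.InjOn (proj p n m) (σ : Set (Vert (hInf p n))) := by
  obtain ⟨g, hg⟩ := hσ
  intro v hv w hw e
  have := congrArg Sigma.fst e
  rw [proj_fst, proj_fst] at this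
  rw [hg v hv, hg w hw, this]

theorem proj_isFace {σ : Finset (Vert (hInf p n))} (hσ : IsFace (hInf p n) σ) :
    IsFace (hyp (ZMod p) n (Rm p m) (tm p m)) (σ.image (proj p n m)) := by
  obtain ⟨g, hg⟩ := hσ
  refine ⟨toGm p n m g, fun v hv => ?_⟩
  obtain ⟨w, hw, rfl⟩ := mem_image.1 hv
  rw [hg w hw, proj_pt]
  rfl

theorem proj_lift {τ : Finset (KV p n m)} (hτ : IsFace (hyp (ZMod p) n (Rm p m) (tm p m)) τ) :
    ∃ σ, IsFace (hInf p n) σ ∧ σ.image (proj p n m) = τ := by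
  obtain ⟨x, hx⟩ := hτ
  obtain ⟨g, rfl⟩ := toGm_surjective p n m x
  refine ⟨(τ.image Sigma.fst).image (pt (hInf p n) g), ⟨g, fun v hv => ?_⟩, ?_⟩
  · obtain ⟨l, -, rfl⟩ := mem_image.1 hv
    rfl
  · rw [image_image, image_image]
    refine (image_congr fun v hv => ?_).trans image_id
    exact (proj_pt g v.1).trans (hx v hv).symm

theorem proj_fibre (hm : 2 ≤ m) {σ τ : Finset (Vert (hInf p n))} (hσ : IsFace (hInf p n) σ)
    (hτ : IsFace (hInf p n) τ) (h : σ.image (proj p n m) = τ.image (proj p n m)) :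
    ∃ g : NGam p n m, img g σ = τ := by
  classical
  obtain ⟨a, ha⟩ := hσ
  obtain ⟨b, hb⟩ := hτ
  have htypes : σ.image Sigma.fst = τ.image Sigma.fst := by
    have := congrArg (Finset.image Sigma.fst) h
    simp only [image_image] at this
    have e : (Sigma.fst ∘ proj p n m) = (Sigma.fst : Vert (hInf p n) → Fin n) := funext proj_fst
    rwa [e] at this
  rcases σ.eq_empty_or_nonempty with he | ⟨v₀, hv₀⟩
  · refine ⟨1, ?_⟩
    rw [he, image_empty, eq_comm, image_eq_empty] at htypes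
    rw [he, htypes, img, image_empty]
  set T := σ.image Sigma.fst with hT
  have hTne : T.Nonempty := ⟨_, mem_image_of_mem _ hv₀⟩
  have hmem : (toGm p n m a)⁻¹ * toGm p n m b ∈ inter (hyp (ZMod p) n (Rm p m) (tm p m)) T := by
    refine mem_inter.2 fun l hl => ?_
    obtain ⟨v, hv, rfl⟩ := mem_image.1 hl
    obtain ⟨w, hw, hwv⟩ := mem_image.1 (h ▸ mem_image_of_mem (proj p n m) hv :
      proj p n m v ∈ τ.image (proj p n m))
    rw [hb w hw, ha v hv, proj_pt, proj_pt] at hwv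
    have hl' := congrArg Sigma.fst hwv
    change w.1 = v.1 at hl'
    rw [hl'] at hwv
    exact QuotientGroup.eq.1 (eq_of_heq (Sigma.ext_iff.1 hwv.symm).2)
  obtain ⟨u, hu, hue⟩ := (map_inter_hyp (redm p m) (redm_X p m) (tm_ne_zero p hm) hTne).ge hmem
  have hker : b * u⁻¹ * a⁻¹ ∈ NGam p n m := by
    rw [MonoidHom.mem_ker, map_mul, map_mul, map_inv, map_inv]
    rw [show toGm p n m u = (toGm p n m a)⁻¹ * toGm p n m b from hue]
    group
  refine ⟨⟨_, hker⟩, ?_⟩
  have hpt : ∀ l ∈ T, (b * u⁻¹ * a⁻¹) • pt (hInf p n) a l = pt (hInf p n) b l := fun l hl => by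
    rw [smul_pt, inv_mul_cancel_right]
    refine Sigma.ext rfl (heq_of_eq (QuotientGroup.eq.2 ?_))
    simpa using mem_inter.1 hu l hl
  ext v
  rw [img, mem_image]
  constructor
  · rintro ⟨w, hw, rfl⟩
    obtain ⟨w', hw', hwl⟩ := mem_image.1 (htypes ▸ mem_image_of_mem Sigma.fst hw :
      w.1 ∈ τ.image Sigma.fst)
    rw [Subgroup.mk_smul, ha w hw, hpt _ (mem_image_of_mem Sigma.fst hw), ← hwl, ← hb w' hw']
    exact hw'
  · intro hv
    obtain ⟨w, hw, hwl⟩ := mem_image.1 (htypes ▸ mem_image_of_mem Sigma.fst hv :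
      v.1 ∈ T)
    refine ⟨w, hw, ?_⟩
    rw [Subgroup.mk_smul, ha w hw, hpt _ (mem_image_of_mem Sigma.fst hw), hwl, ← hb v hv]

/-- Acyclicity of `K_m` is exactness of cochains. -/
theorem exact_ktops (hn : 1 ≤ n) {d : ℕ}
    (h : Acyc (IsFace (hyp (ZMod p) n (Rm p m) (tm p m))) d) {k : ℕ} (hk : 1 ≤ k) (hkd : k ≤ d) :
    Exact (ktops p n m) k := by
  classical
  have hface : ∀ (σ : Finset (KV p n m)) (j : ℕ), σ ∈ face (ktops p n m) j ↔
      IsFace (hyp (ZMod p) n (Rm p m) (tm p m)) σ ∧ σ.card = j := by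
    intro σ j
    simp only [face, ktops, tops, mem_biUnion, mem_powersetCard, Set.Finite.mem_toFinset,
      Set.mem_range]
    constructor
    · rintro ⟨_, ⟨g, rfl⟩, hsub, hc⟩
      refine ⟨⟨g, fun v hv => ?_⟩, hc⟩
      have hv' := hsub hv
      simp only [mem_image, mem_univ, true_and] at hv'
      obtain ⟨l, rfl⟩ := hv'
      rfl
    · rintro ⟨⟨g, hg⟩, hc⟩
      refine ⟨_, ⟨g, rfl⟩, fun v hv => ?_, hc⟩
      simp only [mem_image, mem_univ, true_and]
      exact ⟨v.1, (hg v hv).symm⟩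
  refine LinkE.exact_of_fillings fun z hz hbd => ?_
  obtain ⟨y, hy, hyc⟩ := h k hkd z
    ((Finsupp.mem_supported _ _).2 fun σ hσ => (hface σ k).1 (hz σ hσ)) hbd
  exact ⟨y, fun σ hσ => (hface σ (k + 1)).2 ((Finsupp.mem_supported _ _).1 hy hσ), hyc⟩

end Vale.Agent.P067.Alld.Van
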