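import Vale.Agent.P067.Alld.Van.Eq.Extend

/-!
P067, part I-a: comparison of free complexes with acyclic ones.
-/

set_option linter.unusedSectionVars false
set_option linter.unusedVariables false

namespace Vale.Agent.P067.Alld.Van

open Finset Sparse

variable {α β : Type*} [DecidableEq α] [DecidableEq β] {G G' : Type*} [Group G] [Group G']
  [MulAction G α] [MulAction G' β] {F : Finset α → Prop} {F' : Finset β → Prop} {D k : ℕ}

theorem mem_rel_bot {x : Ch α} : x ∈ Rel (⊥ : Subgroup G) α ↔ x = 0 := by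
  refine ⟨fun hx => ?_, fun hx => hx ▸ zero_mem _⟩
  have := map_mem_of_rel (R := (⊥ : Submodule (ZMod 2) (Ch α))) (L := LinearMap.id)
    (fun g σ => by
      rw [img_coe, Subgroup.mem_bot.1 g.2, img_one]
      simp only [LinearMap.id_apply, Submodule.mem_bot]
      exact add_self_eq_zero' _) hx
  simpa using this

theorem rel_mono {A B : Subgroup G} (h : A ≤ B) : Rel A α ≤ Rel B α :=
  Submodule.span_le.2 fun _ ⟨⟨g, σ⟩, e⟩ => e ▸ gen_mem_rel_of (h g.2) σ

theorem rel_le (A : Subgroup G) : Rel A α ≤ Rel G α :=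
  Submodule.span_le.2 fun _ ⟨⟨g, σ⟩, e⟩ => e ▸ gen_mem_rel (g : G) σ

theorem act_mem_cs (hF : Cx G F) (g : G) {x : Ch α} (hx : x ∈ Cs F k) : act g x ∈ Cs F k :=
  map_mem_of_cs (fun σ h hc => by
    rw [act_single]
    exact single_mem_cs (hF.inv g σ h) (by rw [card_img, hc])) hx

theorem act_add_self_mem_rel (g : G) (x : Ch α) : act g x + x ∈ Rel G α := act_add_mem_rel' g x

theorem bd_act (g : G) (x : Ch α) : bd (act g x) = act g (bd x) :=
  lhom_ext_single (L := (bd : Ch α →ₗ[ZMod 2] Ch α) ∘ₗ act g)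
    (L' := (act g : Ch α →ₗ[ZMod 2] Ch α) ∘ₗ bd)
    (fun σ => by simpa only [LinearMap.comp_apply] using bd_act_single g σ) x

theorem bd_mem_rel {x : Ch α} (hx : x ∈ Rel G α) : bd x ∈ Rel G α :=
  map_mem_of_rel (fun g σ => by
    rw [map_add, ← act_single, bd_act]
    exact act_add_self_mem_rel g _) hx

theorem add_add_add_self {M : Type*} [AddCommGroup M] [Module (ZMod 2) M] (a b c : M) :
    a + b + (b + c) = a + c := by
  rw [add_assoc, ← add_assoc b, add_self_eq_zero', zero_add]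

theorem exists_finset_rel {A : Subgroup G} {x : Ch α} (hx : x ∈ Rel A α) :
    ∃ s : Finset G, (∀ a ∈ s, a ∈ A) ∧
      ∀ B : Subgroup G, (∀ a ∈ s, a ∈ B) → x ∈ Rel B α := by
  classical
  induction hx using Submodule.span_induction with
  | mem w hw =>
    obtain ⟨⟨g, σ⟩, rfl⟩ := hw
    exact ⟨{(g : G)}, fun a ha => (mem_singleton.1 ha) ▸ g.2,
      fun B hB => gen_mem_rel_of (hB _ (mem_singleton_self _)) σ⟩
  | zero => exact ⟨∅, by simp, fun B _ => zero_mem _⟩
  | add x y _ _ hx hy =>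
    obtain ⟨s, hs, hxs⟩ := hx
    obtain ⟨t, ht, hyt⟩ := hy
    exact ⟨s ∪ t, fun a ha => (mem_union.1 ha).elim (hs a) (ht a), fun B hB =>
      add_mem (hxs B fun a ha => hB a (mem_union_left _ ha))
        (hyt B fun a ha => hB a (mem_union_right _ ha))⟩
  | smul c x _ hx =>
    obtain ⟨s, hs, hxs⟩ := hx
    exact ⟨s, hs, fun B hB => Submodule.smul_mem _ _ (hxs B hB)⟩

section Average

variable (K : Subgroup G) [Fintype K]

/-- The sum over a finite subgroup. -/
noncomputable def avg : Ch α →ₗ[ZMod 2] Ch α := ∑ b : K, act (b : G)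

theorem avg_rel {x : Ch α} (hx : x ∈ Rel K α) : avg K x = 0 := by
  have := map_mem_of_rel (R := (⊥ : Submodule (ZMod 2) (Ch α))) (L := avg K) (fun g σ => by
    rw [Submodule.mem_bot, map_add, img_coe, ← act_single]
    simp only [avg, LinearMap.coe_sum, Finset.sum_apply]
    rw [Fintype.sum_equiv (Equiv.mulRight g) (fun b : K => act (b : G) (act (g : G)
      (Finsupp.single σ (1 : ZMod 2) : Ch α))) (fun b : K => act (b : G) (Finsupp.single σ 1))
      fun b => by simp [act_mul]]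
    exact add_self_eq_zero' _) hx
  simpa using this

theorem avg_add_mem_rel (hodd : Odd (Fintype.card K)) (x : Ch α) : avg K x + x ∈ Rel K α := by
  have h : ∑ b : K, (act (b : G) x + x) = avg K x + x := by
    rw [sum_add_distrib, sum_const, card_univ]
    obtain ⟨m, hm⟩ := hodd
    simp only [avg, LinearMap.coe_sum, Finset.sum_apply]
    rw [hm, add_smul, one_smul, mul_comm, mul_smul, two_nsmul, add_self_eq_zero',
      smul_zero, zero_add]
  rw [← h]
  exact sum_mem fun b _ => by rw [← act_coe]; exact act_add_self_mem_rel b x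

theorem bd_avg (x : Ch α) : bd (avg K x) = avg K (bd x) := by
  simp [avg, map_sum, bd_act]

theorem avg_mem_cs (hF : Cx G F) {x : Ch α} (hx : x ∈ Cs F k) : avg K x ∈ Cs F k := by
  simp only [avg, LinearMap.coe_sum, Finset.sum_apply]
  exact sum_mem fun b _ => act_mem_cs hF _ hx

end Average

/-- Averaging: the orbit complex of a locally finite odd group is acyclic. -/
theorem van_of_lfOdd (hF : Cx G F) {A : Subgroup G} (hA : LFOdd A) (hac : Acyc F D)
    (hk : k ≤ D) : Van A F k := by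
  intro c hc hbd
  obtain ⟨s, hs, hsrel⟩ := exists_finset_rel hbd
  obtain ⟨K, hKA, hsK, hfin, hodd⟩ := hA s hs
  have : Fintype K := Fintype.ofFinite K
  rw [Nat.card_eq_fintype_card] at hodd
  refine Submodule.mem_sup.2 ⟨avg K c, hac k hk _ (avg_mem_cs K hF hc) ?_, avg K c + c,
    rel_mono hKA (avg_add_mem_rel K hodd c), ?_⟩
  · rw [bd_avg, avg_rel K (hsrel K hsK)]
  · rw [← add_assoc, add_self_eq_zero', zero_add]

theorem exists_map (θ : G →* G') (hF : Cx G F) (hF' : Cx G' F') (hfree : Free G F D)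
    (hac : Acyc F' D) : ∃ f, IsMap (⊥ : Subgroup G') θ F F' D f := by
  classical
  suffices key : ∀ N, N ≤ D → ∃ f : Ch α →ₗ[ZMod 2] Ch β,
      (∀ g x, f (act g x) = act (θ g) (f x)) ∧
      (f (Finsupp.single ∅ 1) = Finsupp.single ∅ 1) ∧
      (∀ σ, N < σ.card → f (Finsupp.single σ 1) = 0) ∧
      ∀ σ, F σ → σ.card ≤ N → f (Finsupp.single σ 1) ∈ Cs F' σ.card ∧
        bd (f (Finsupp.single σ 1)) = f (bd (Finsupp.single σ 1)) by
    obtain ⟨f, he, h0, -, hf⟩ := key D le_rfl
    refine ⟨f, ⟨fun g x => by rw [he, sub_self]; exact zero_mem _, fun k hk x hx => ?_,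
      fun k hk x hx => ?_, h0⟩⟩
    · exact map_mem_of_cs (fun σ h hc => by simpa only [hc] using (hf σ h (hc ▸ hk)).1) hx
    · exact eq_of_cs (L := bd ∘ₗ f) (L' := f ∘ₗ bd)
        (fun σ h hc => (hf σ h (hc ▸ hk)).2) hx
  intro N
  induction N with
  | zero =>
    intro _
    set f : Ch α →ₗ[ZMod 2] Ch β := Finsupp.linearCombination (ZMod 2) fun σ : Finset α =>
      if σ.card = 0 then Finsupp.single (∅ : Finset β) 1 else 0 with hf
    refine ⟨f, fun g x => ?_, by simp [hf],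
      fun σ h => by simp [hf, (card_pos.1 h).ne_empty], fun σ _ hc => ?_⟩
    · refine lhom_ext_single (L := f ∘ₗ act g) (L' := act (θ g) ∘ₗ f) (fun σ => ?_) x
      have hi : img g σ = ∅ ↔ σ = ∅ := by simp [img]
      by_cases h : σ = ∅ <;> simp [hf, act_single, hi, h, img_empty]
    · obtain rfl : σ = ∅ := card_eq_zero.1 (by omega)
      exact ⟨by simpa [hf] using single_mem_cs hF'.empty card_empty, by simp [hf, bd_single]⟩
  | succ N ih =>
    intro hN
    obtain ⟨f₀, he₀, h0, hbig, hf₀⟩ := ih (by omega)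
    have hlow : ∀ σ, F σ → σ.card = N + 1 → bd (Finsupp.single σ 1) ∈ Cs F N :=
      fun σ h hc => cs_mono hF.down h hc
    obtain ⟨f, he, hf, hne, -⟩ := exists_equiv_degree θ hF hfree hN f₀ he₀
      (fun σ hc => hbig σ (by omega))
      (fun σ y => y ∈ Cs F' (N + 1) ∧ bd y = f₀ (bd (Finsupp.single σ 1)))
      (fun g σ h hc y hy => ⟨act_mem_cs hF' _ hy.1, by
        rw [bd_act, hy.2, ← act_single, bd_act, he₀]⟩)
      (fun σ h hc => by
        obtain ⟨y, hy, hyb⟩ := hac N (by omega) (f₀ (bd (Finsupp.single σ 1)))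
          (map_mem_of_cs (fun τ h' hc' => by simpa only [hc'] using (hf₀ τ h' hc'.le).1)
            (hlow σ h hc))
          (by
            have := eq_of_cs (L := bd ∘ₗ f₀) (L' := f₀ ∘ₗ bd)
              (fun τ h' hc' => (hf₀ τ h' hc'.le).2) (hlow σ h hc)
            simpa [bd_bd] using this)
        exact ⟨y, hy, hyb⟩)
    have hbd : ∀ σ : Finset α, σ.card ≤ N + 1 →
        f (bd (Finsupp.single σ 1)) = f₀ (bd (Finsupp.single σ 1)) := fun σ hc => by
      simp only [bd_single, map_sum]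
      exact sum_congr rfl fun x hx => hne _ (by have := card_erase_add_one hx; omega)
    refine ⟨f, he, by rw [hne ∅ (by simp), h0],
      fun σ h => by rw [hne σ (by omega), hbig σ (by omega)], fun σ h hc => ?_⟩
    rw [hbd σ hc]
    rcases eq_or_lt_of_le hc with hc | hc
    · rw [hc]; exact hf σ h hc
    · rw [hne σ hc.ne]; exact hf₀ σ h (by omega)

theorem IsMap.weaken {A A' : Subgroup G'} (hle : A ≤ A') {θ : G →* G'}
    {f : Ch α →ₗ[ZMod 2] Ch β} (hf : IsMap A θ F F' D f) : IsMap A' θ F F' D f :=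
  ⟨fun g x => rel_mono hle (hf.equiv g x), hf.mem, hf.comm, hf.empty⟩

/-- A translation is a map for conjugation. -/
theorem isMap_act {G₀ : Subgroup G} (θ : G₀ →* G) (u : G) (hθ : ∀ g : G₀, θ g * u = u * g)
    (hF : Cx G F) : IsMap (⊥ : Subgroup G) θ F F D (act u) := by
  refine ⟨fun g x => ?_, fun k _ x hx => act_mem_cs hF u hx, fun k _ x _ => bd_act u x,
    by simp [act_single, img_empty]⟩
  rw [act_coe, ← act_mul, ← act_mul, hθ, sub_self]
  exact zero_mem _

theorem isMap_id {G₀ : Subgroup G} (A : Subgroup G) (hF : Cx G F) :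
    IsMap A G₀.subtype F F D LinearMap.id :=
  ⟨fun g x => by simp [act_coe], fun _ _ _ hx => hx, fun _ _ _ _ => rfl, rfl⟩

theorem isMap_refl (hF : Cx G F) :
    IsMap (⊥ : Subgroup G) (MonoidHom.id G) F F D LinearMap.id :=
  ⟨fun g x => by simp, fun _ _ _ hx => hx, fun _ _ _ _ => rfl, rfl⟩

/-- Exactly equivariant maps compose. -/
theorem IsMap.comp {γ : Type*} [DecidableEq γ] {G'' : Type*} [Group G''] [MulAction G'' γ]
    {F'' : Finset γ → Prop} {θ : G →* G'} {θ' : G' →* G''} {A : Subgroup G''}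
    {f : Ch α →ₗ[ZMod 2] Ch β} {f' : Ch β →ₗ[ZMod 2] Ch γ}
    (hf : IsMap (⊥ : Subgroup G') θ F F' D f) (hf' : IsMap A θ' F' F'' D f') :
    IsMap A (θ'.comp θ) F F'' D (f' ∘ₗ f) := by
  refine ⟨fun g x => ?_, fun k hk x hx => hf'.mem k hk _ (hf.mem k hk x hx), fun k hk x hx => ?_,
    by simp [hf.empty, hf'.empty]⟩
  · have h := hf.equiv g x
    rw [mem_rel_bot, sub_eq_zero] at h
    simpa [h] using hf'.equiv (θ g) (f x)
  · simp [hf'.comm k hk _ (hf.mem k hk x hx), hf.comm k hk x hx]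

theorem map_rel_of_eqMod {A B : Subgroup G'} {θ : G →* G'} {f : Ch α →ₗ[ZMod 2] Ch β}
    (hf : EqMod A θ f) (hA : A ≤ B) (hB : ∀ g, θ g ∈ B) {x : Ch α}
    (hx : x ∈ Rel G α) : f x ∈ Rel B β := by
  refine map_mem_of_rel (fun g σ => ?_) hx
  have h1 := rel_mono hA (hf g (Finsupp.single σ 1))
  rw [sub_eq_add2, act_single] at h1
  have h2 := act_add_self_mem_rel (⟨θ g, hB g⟩ : B) (f (Finsupp.single σ 1))
  rw [act_coe] at h2
  rw [map_add]
  simpa only [add_add_add_self] using add_mem h1 h2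

theorem IsMap.map_rel {A B : Subgroup G'} {θ : G →* G'} {f : Ch α →ₗ[ZMod 2] Ch β}
    (hf : IsMap A θ F F' D f) (hA : A ≤ B) (hB : ∀ g, θ g ∈ B) {x : Ch α}
    (hx : x ∈ Rel G α) : f x ∈ Rel B β :=
  map_rel_of_eqMod hf.equiv hA hB hx

theorem IsMap.map_bd {A B : Subgroup G'} {θ : G →* G'} {f : Ch α →ₗ[ZMod 2] Ch β}
    (hf : IsMap A θ F F' D f) (hA : A ≤ B) (hB : ∀ g, θ g ∈ B) (hk : k + 1 ≤ D) {x : Ch α}
    (hx : x ∈ Bd G α F k) : f x ∈ Bd B β F' k := by
  obtain ⟨_, ⟨y, hy, rfl⟩, r, hr, rfl⟩ := Submodule.mem_sup.1 hx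
  rw [map_add, ← hf.comm _ hk y hy]
  exact Submodule.mem_sup.2 ⟨_, ⟨f y, hf.mem _ hk y hy, rfl⟩, _, hf.map_rel hA hB hr, rfl⟩

/-- Two maps agree in homology. -/
theorem homotopic {A B : Subgroup G'} (θ : G →* G') (hF : Cx G F) (hF' : Cx G' F')
    (hfree : Free G F D) (hVan : ∀ j ≤ D, Van A F' j)
    (hnorm : ∀ g, ∀ a ∈ A, θ g * a * (θ g)⁻¹ ∈ A) (hA : A ≤ B) (hB : ∀ g, θ g ∈ B)
    {f f' : Ch α →ₗ[ZMod 2] Ch β} (hf : IsMap A θ F F' D f) (hf' : IsMap A θ F F' D f')
    (hk : k ≤ D) {c : Ch α} (hc : c ∈ Cs F k) (hbd : bd c ∈ Rel G α) :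
    f c - f' c ∈ Bd B β F' k := by
  set h := f + f' with hdef
  have heq : ∀ g x, h (act g x) + act (θ g) (h x) ∈ Rel A β := fun g x => by
    have e := add_mem (hf.equiv g x) (hf'.equiv g x)
    rw [sub_eq_add2, sub_eq_add2, add_add_add_comm] at e
    simpa [hdef] using e
  have hmem : ∀ j ≤ D, ∀ x ∈ Cs F j, h x ∈ Cs F' j := fun j hj x hx =>
    add_mem (hf.mem j hj x hx) (hf'.mem j hj x hx)
  have hcomm : ∀ j ≤ D, ∀ x ∈ Cs F j, bd (h x) = h (bd x) := fun j hj x hx => by
    simp [hdef, hf.comm j hj x hx, hf'.comm j hj x hx]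
  have key : ∀ N, N ≤ D → ∃ H : Ch α →ₗ[ZMod 2] Ch β,
      (∀ g x, H (act g x) = act (θ g) (H x)) ∧
      (∀ σ, N < σ.card → H (Finsupp.single σ 1) = 0) ∧
      ∀ σ, F σ → σ.card ≤ N → H (Finsupp.single σ 1) ∈ Cs F' (σ.card + 1) ∧
        bd (H (Finsupp.single σ 1)) + (H (bd (Finsupp.single σ 1)) +
          h (Finsupp.single σ 1)) ∈ Rel A β := by
    intro N
    induction N with
    | zero =>
      refine fun _ => ⟨0, fun g x => by simp, fun σ _ => rfl, fun σ _ hc => ?_⟩
      obtain rfl : σ = ∅ := card_eq_zero.1 (by omega)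
      simp [hdef, hf.empty, hf'.empty, add_self_eq_zero']
    | succ N ih =>
      intro hN
      obtain ⟨H₀, he₀, hbig, hH₀⟩ := ih (by omega)
      have hlow : ∀ σ, F σ → σ.card = N + 1 → bd (Finsupp.single σ 1) ∈ Cs F N :=
        fun σ hσ hc => cs_mono hF.down hσ hc
      obtain ⟨H, he, hH, hne, -⟩ := exists_equiv_degree θ hF hfree hN H₀ he₀
        (fun σ hc => hbig σ (by omega))
        (fun σ y => y ∈ Cs F' (N + 1 + 1) ∧
          bd y + (H₀ (bd (Finsupp.single σ 1)) + h (Finsupp.single σ 1)) ∈ Rel A β)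
        (fun g σ hσ hc y hy => ⟨act_mem_cs hF' _ hy.1, by
          have e := add_mem (act_mem_rel (hnorm g) hy.2) (heq g (Finsupp.single σ 1))
          rw [map_add, map_add, add_comm (h (act g _)), ← add_assoc (act (θ g) (bd y)),
            add_add_add_self] at e
          rw [bd_act, ← act_single, bd_act, he₀, ← add_assoc]
          exact e⟩)
        (fun σ hσ hc => by
          set s : Ch α := Finsupp.single σ 1
          have hs : s ∈ Cs F (N + 1) := single_mem_cs hσ hc
          have hz : H₀ (bd s) + h s ∈ Cs F' (N + 1) := add_mem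
            (map_mem_of_cs (fun τ h' hc' => by simpa only [hc'] using (hH₀ τ h' hc'.le).1)
              (hlow σ hσ hc))
            (hmem _ hN _ hs)
          have hcyc : bd (H₀ (bd s) + h s) ∈ Rel A β := by
            have e := map_mem_of_cs (R := Rel A β) (L := bd ∘ₗ H₀ + (H₀ ∘ₗ bd + h))
              (fun τ h' hc' => (hH₀ τ h' hc'.le).2) (hlow σ hσ hc)
            simpa [bd_bd, hcomm _ hN _ hs] using e
          obtain ⟨_, ⟨y, hy, rfl⟩, r, hr, e⟩ :=
            Submodule.mem_sup.1 (hVan (N + 1) hN _ hz hcyc)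
          refine ⟨y, hy, ?_⟩
          rw [← e, ← add_assoc, add_self_eq_zero', zero_add]
          exact hr)
      have hbd' : ∀ σ : Finset α, σ.card ≤ N + 1 →
          H (bd (Finsupp.single σ 1)) = H₀ (bd (Finsupp.single σ 1)) := fun σ hc => by
        simp only [bd_single, map_sum]
        exact sum_congr rfl fun x hx => hne _ (by have := card_erase_add_one hx; omega)
      refine ⟨H, he, fun σ hσ => by rw [hne σ (by omega), hbig σ (by omega)],
        fun σ hσ hc => ?_⟩
      rw [hbd' σ hc]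
      rcases eq_or_lt_of_le hc with hc | hc
      · rw [hc]; exact hH σ hσ hc
      · rw [hne σ hc.ne]; exact hH₀ σ hσ (by omega)
  obtain ⟨H, he, -, hH⟩ := key D le_rfl
  have e := rel_mono hA (map_mem_of_cs (R := Rel A β) (L := bd ∘ₗ H + (H ∘ₗ bd + h))
    (fun σ hσ hc => (hH σ hσ (hc ▸ hk)).2) hc)
  have hr : H (bd c) ∈ Rel B β :=
    map_rel_of_eqMod (fun g x => by rw [he, sub_self]; exact zero_mem _) hA hB hbd
  have hy : H c ∈ Cs F' (k + 1) :=
    map_mem_of_cs (fun σ hσ hc => by simpa only [hc] using (hH σ hσ (hc ▸ hk)).1) hc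
  refine Submodule.mem_sup.2 ⟨_, ⟨H c, hy, rfl⟩, bd (H c) + h c, ?_, ?_⟩
  · have e' := add_mem hr e
    simp only [LinearMap.add_apply, LinearMap.comp_apply] at e'
    rwa [← add_assoc (bd (H c)), add_comm (bd (H c)), add_assoc, ← add_assoc (H (bd c)),
      add_self_eq_zero', zero_add] at e'
  · rw [sub_eq_add2, ← add_assoc, add_self_eq_zero', zero_add]
    rfl

theorem lfOdd_bot : LFOdd (⊥ : Subgroup G) :=
  fun _ hs => ⟨⊥, le_rfl, hs, inferInstance, by simp⟩

/-- Vanishing does not depend on the free acyclic complex. -/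
theorem van_congr (e : G ≃* G') (hF : Cx G F) (hF' : Cx G' F') (hfree : Free G F (D + 1))
    (hfree' : Free G' F' (D + 1)) (hac : Acyc F (D + 1)) (hac' : Acyc F' (D + 1)) (hk : k ≤ D)
    (h : Van G F k) : Van G' F' k := by
  intro c hc hbd
  obtain ⟨f, hf⟩ := exists_map (e : G →* G') hF hF' hfree hac'
  obtain ⟨f', hf'⟩ := exists_map (e.symm : G' →* G) hF' hF hfree' hac
  have hid : (e : G →* G').comp (e.symm : G' →* G) = MonoidHom.id G' := by ext; simp
  have hcomp := hf'.comp hf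
  rw [hid] at hcomp
  have hle : Rel (⊤ : Subgroup G) α ≤ Rel G α := rel_le _
  have hcyc : bd (f' c) ∈ Rel G α := by
    rw [hf'.comm k (by omega) c hc]
    exact hle (hf'.map_rel bot_le (fun _ => Subgroup.mem_top _) hbd)
  have h1 := hf.map_bd bot_le (fun g => Subgroup.mem_top ((e : G →* G') g)) (by omega)
    (h _ (hf'.mem k (by omega) c hc) hcyc)
  have h2 := homotopic (B := ⊤) (MonoidHom.id G') hF' hF' hfree'
    (fun j hj => van_of_lfOdd hF' lfOdd_bot hac' hj)
    (fun g a ha => by simp [Subgroup.mem_bot.1 ha]) bot_le (fun g => Subgroup.mem_top _)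
    hcomp (isMap_refl hF') (show k ≤ D + 1 by omega) hc hbd
  have h3 := sub_mem h1 h2
  simp only [LinearMap.comp_apply, LinearMap.id_apply, sub_sub_cancel] at h3
  obtain ⟨a, ha, r, hr, rfl⟩ := Submodule.mem_sup.1 h3
  exact Submodule.mem_sup.2 ⟨a, ha, r, rel_le _ hr, rfl⟩

end Vale.Agent.P067.Alld.Van
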