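import Vale.Agent.P067.Alld.Van.Frames.Red

/-!
P067, part I-b: general position, transitivity and lifting of frames.
-/

namespace Vale.Agent.P067.Alld.Van

open Finset Matrix

variable {p : ℕ} [Fact p.Prime] {n m b : ℕ}

/-- General position over `F[t]`. -/
theorem exists_common (s : Finset (FPair (Polynomial (ZMod p)) n)) (hs : 2 * s.card < n) :
    ∃ w, w ∉ s ∧ ∀ x ∈ s, Orth w x ∧ Orth x w := by
  classical
  obtain ⟨w, hw⟩ := exists_pair_orth (fun x : {x // x ∈ s} => x.1.1.1) (fun x => x.1.1.2)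
    (by rwa [Fintype.card_coe])
  refine ⟨w, fun hws => ?_, fun x hx => ⟨(hw ⟨x, hx⟩).1, (hw ⟨x, hx⟩).2⟩⟩
  have h1 : w.1.2 ⬝ᵥ w.1.1 = 0 := (hw ⟨w, hws⟩).1
  rw [w.2] at h1
  exact one_ne_zero h1

/-- General position over `F[t] / t^m`. -/
theorem exists_common_red (hm : 1 ≤ m) (s : Finset (FPair (Rm p m) n)) (hs : 2 * s.card < n) :
    ∃ w, w ∉ s ∧ ∀ x ∈ s, Orth w x ∧ Orth x w := by
  classical
  have := nontrivial_Rm (p := p) hm
  let lift : (Fin n → Rm p m) → Fin n → Polynomial (ZMod p) := fun v i =>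
    Function.surjInv red_surjective (v i)
  have hlift : ∀ v, red p m ∘ lift v = v := fun v => funext fun i =>
    Function.surjInv_eq red_surjective (v i)
  obtain ⟨w, hw⟩ := exists_pair_orth (fun x : {x // x ∈ s} => lift x.1.1.1)
    (fun x => lift x.1.1.2) (by rwa [Fintype.card_coe])
  have key : ∀ x ∈ s, Orth (FPair.map (red p m) w) x ∧ Orth x (FPair.map (red p m) w) := fun x hx => by
    obtain ⟨h1, h2⟩ := hw ⟨x, hx⟩
    have e1 := congrArg (red p m) h1
    have e2 := congrArg (red p m) h2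
    rw [RingHom.map_dotProduct, map_zero, hlift] at e1 e2
    exact ⟨e1, e2⟩
  refine ⟨FPair.map (red p m) w, fun hws => ?_, key⟩
  have h1 := (key _ hws).1
  rw [Orth, (FPair.map (red p m) w).2] at h1
  exact one_ne_zero h1

theorem isFrame_smul (g : SpecialLinearGroup (Fin n) (Polynomial (ZMod p)))
    {σ : Finset (FPair (Polynomial (ZMod p)) n)} (hσ : IsFrame σ) :
    IsFrame (σ.image (g • ·)) := by
  refine ⟨card_image_le.trans hσ.1, fun w hw w' hw' hne => ?_⟩
  obtain ⟨u, hu, rfl⟩ := mem_image.1 hw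
  obtain ⟨u', hu', rfl⟩ := mem_image.1 hw'
  exact (orth_smul g u u').2 (hσ.2 u hu u' hu' fun e => hne (by rw [e]))

theorem isFrame_map (hm : 1 ≤ m) {σ : Finset (FPair (Polynomial (ZMod p)) n)} (hσ : IsFrame σ) :
    Set.InjOn (FPair.map (red p m)) (σ : Set (FPair (Polynomial (ZMod p)) n)) ∧ IsFrame (σ.image (FPair.map (red p m))) := by
  have := nontrivial_Rm (p := p) hm
  refine ⟨fun w hw w' hw' he => ?_, card_image_le.trans hσ.1, fun u hu u' hu' hne => ?_⟩
  · by_contra hne
    have h := orth_map (red p m) (hσ.2 w hw w' hw' hne)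
    rw [he, Orth, (FPair.map (red p m) w').2] at h
    exact one_ne_zero h
  · obtain ⟨w, hw, rfl⟩ := mem_image.1 hu
    obtain ⟨w', hw', rfl⟩ := mem_image.1 hu'
    exact orth_map (red p m) (hσ.2 w hw w' hw' fun e => hne (by rw [e]))

theorem map_smul_of_mem_ker {g : SpecialLinearGroup (Fin n) (Polynomial (ZMod p))}
    (hg : g ∈ Ker p n m) (w : FPair (Polynomial (ZMod p)) n) :
    FPair.map (red p m) (g • w) = FPair.map (red p m) w := by
  rw [fpairMap_smul, MonoidHom.mem_ker.1 hg, one_smul]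

/-- Transitivity. -/
theorem exists_smul_stdFrame {σ : Finset (FPair (Polynomial (ZMod p)) n)} (hσ : IsFrame σ)
    (hb : σ.card = b) :
    ∃ g : SpecialLinearGroup (Fin n) (Polynomial (ZMod p)),
      σ = (stdFrame (Polynomial (ZMod p)) n b).image (g • ·) := by
  obtain ⟨g, -, hg⟩ := exists_frame_image red_poly hσ hb
  exact ⟨g, hg⟩

/-- Lifting. -/
theorem exists_lift_frame (hm : 1 ≤ m) {τ : Finset (FPair (Rm p m) n)} (hτ : IsFrame τ) :
    ∃ σ, IsFrame σ ∧ σ.image (FPair.map (red p m)) = τ := by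
  have := nontrivial_Rm (p := p) hm
  obtain ⟨g, hg, hτg⟩ := exists_frame_image (red_Rm hm) hτ rfl
  obtain ⟨h, -, rfl⟩ := Subgroup.mem_map.1 (tvGroup_le_map (red p m) red_surjective _ hg)
  refine ⟨(stdFrame (Polynomial (ZMod p)) n τ.card).image (h • ·),
    isFrame_smul h (isFrame_stdFrame hτ.1), ?_⟩
  conv_rhs => rw [hτg]
  rw [image_image, stdFrame, stdFrame, image_image, image_image]
  exact image_congr fun i _ => by simp [fpairMap_smul, fpairMap_stdPair]

/-- Congruent frames are conjugate under the kernel. -/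
theorem exists_ker_smul (hm : 1 ≤ m) {σ τ : Finset (FPair (Polynomial (ZMod p)) n)}
    (hσ : IsFrame σ) (hτ : IsFrame τ)
    (h : σ.image (FPair.map (red p m)) = τ.image (FPair.map (red p m))) :
    ∃ g ∈ Ker p n m, σ.image (g • ·) = τ := by
  classical
  rcases Nat.eq_zero_or_pos n with rfl | hn
  · have h1 : σ = ∅ := card_eq_zero.1 (by have := hσ.1; omega)
    have h2 : τ = ∅ := card_eq_zero.1 (by have := hτ.1; omega)
    exact ⟨1, one_mem _, by simp [h1, h2]⟩
  obtain ⟨g₁, -, hg₁⟩ := exists_frame_image red_poly hσ rfl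
  let I : Finset (Fin n) := univ.filter fun i : Fin n => n - σ.card ≤ (i : ℕ)
  have hmem : ∀ i ∈ I, g₁ • stdPair (Polynomial (ZMod p)) i ∈ σ := fun i hi => by
    rw [hg₁, stdFrame, image_image]
    exact mem_image.2 ⟨i, hi, rfl⟩
  have hex : ∀ i : Fin n, i ∈ I → ∃ w' ∈ τ, FPair.map (red p m) w' =
      FPair.map (red p m) (g₁ • stdPair (Polynomial (ZMod p)) i) := fun i hi =>
    mem_image.1 (h ▸ mem_image_of_mem (FPair.map (red p m)) (hmem i hi))
  have : Nonempty (Fin n → FPair (Polynomial (ZMod p)) n) := ⟨stdPair _⟩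
  let f : Fin n → FPair (Polynomial (ZMod p)) n := fun i =>
    if h : i ∈ I then (hex i h).choose else stdPair _ i
  have hf : ∀ i ∈ I, f i ∈ τ ∧ FPair.map (red p m) (f i) =
      FPair.map (red p m) (g₁ • stdPair (Polynomial (ZMod p)) i) := fun i hi => by
    simp only [f, dif_pos hi]
    exact (hex i hi).choose_spec
  obtain ⟨g₂, -, hg₂⟩ := exists_of_orth red_poly I f
    (by
      have hc : I.card = σ.card := card_stdIdx (le_trans hσ.1 (Nat.sub_le n 1))
      rw [hc]
      have := hσ.1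
      omega)
    (fun i hi i' hi' hne => hτ.2 _ (hf i hi).1 _ (hf i' hi').1 fun e => hne (by
      have e' : FPair.map (red p m) (f i) = FPair.map (red p m) (f i') := by rw [e]
      rw [(hf i hi).2, (hf i' hi').2, fpairMap_smul, fpairMap_smul, smul_left_cancel_iff,
        fpairMap_stdPair, fpairMap_stdPair] at e'
      have := nontrivial_Rm (p := p) hm
      exact stdPair_injective e'))
  have hfix : SpecialLinearGroup.map (red p m) (g₁⁻¹ * g₂) ∈ fixGroup (Rm p m) Iᶜ :=
    mem_fixGroup.2 fun k hk => by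
      have hk : k ∈ I := by simpa using hk
      rw [← fpairMap_stdPair (red p m), ← fpairMap_smul, mul_smul, hg₂ k hk, fpairMap_smul, (hf k hk).2,
        ← fpairMap_smul, inv_smul_smul]
  obtain ⟨c, hc, hce⟩ := Subgroup.mem_map.1
    (tvGroup_le_map (red p m) red_surjective _ (fix_le_tvGroup (red_Rm hm) _ hfix))
  refine ⟨g₂ * c⁻¹ * g₁⁻¹, MonoidHom.mem_ker.2 ?_, eq_of_subset_of_card_le (fun u hu => ?_) ?_⟩
  · rw [map_mul, map_mul, map_inv, map_inv, hce, map_mul, map_inv]
    group
  · obtain ⟨w, hw, rfl⟩ := mem_image.1 hu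
    rw [hg₁, stdFrame, image_image] at hw
    obtain ⟨i, hi, rfl⟩ := mem_image.1 hw
    have hfix' := mem_fixGroup.1 (inv_mem (tvGroup_le_fix _ hc)) i (by simpa [I] using hi)
    simp only [Function.comp_apply, mul_smul, inv_smul_smul, hfix', hg₂ i hi]
    exact (hf i hi).1
  · rw [card_image_of_injective _ (MulAction.injective _)]
    have h1 := card_image_of_injOn (isFrame_map hm hσ).1
    have h2 := card_image_of_injOn (isFrame_map hm hτ).1
    rw [h] at h1
    omega

/-- The stabiliser in the kernel of the standard frame is the block. -/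
theorem stab_stdFrame (hm : 1 ≤ m) (hb : b < n)
    {g : SpecialLinearGroup (Fin n) (Polynomial (ZMod p))} (hg : g ∈ Ker p n m) :
    (stdFrame (Polynomial (ZMod p)) n b).image (g • ·) = stdFrame (Polynomial (ZMod p)) n b ↔
      ∃ h ∈ Ker p (n - b) m, g = blk (Nat.sub_le n b) h := by
  have := nontrivial_Rm (p := p) hm
  have hstd : IsFrame (stdFrame (Polynomial (ZMod p)) n b) := isFrame_stdFrame (by omega)
  constructor
  · intro h
    have hfix : ∀ i : Fin n, n - b ≤ (i : ℕ) →
        g • stdPair (Polynomial (ZMod p)) i = stdPair (Polynomial (ZMod p)) i := fun i hi => by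
      have hi' : stdPair (Polynomial (ZMod p)) i ∈ stdFrame (Polynomial (ZMod p)) n b :=
        mem_image.2 ⟨i, by simpa using hi, rfl⟩
      exact (isFrame_map hm hstd).1 (h ▸ mem_image_of_mem (g • ·) hi') hi'
        (map_smul_of_mem_ker hg _)
    obtain ⟨h', rfl⟩ := exists_blk (Nat.sub_le n b) hfix
    refine ⟨h', ?_, rfl⟩
    rw [MonoidHom.mem_ker] at hg ⊢
    refine Subtype.ext (Matrix.ext fun a c => ?_)
    have hm' := congrFun (congrFun (congrArg Subtype.val hg)
      (blkEquiv (Nat.sub_le n b) (Sum.inl a))) (blkEquiv (Nat.sub_le n b) (Sum.inl c))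
    change red p m ((blk (Nat.sub_le n b) h').1 (blkEquiv (Nat.sub_le n b) (Sum.inl a))
      (blkEquiv (Nat.sub_le n b) (Sum.inl c))) = _ at hm'
    rw [blk_coe] at hm'
    show red p m (h'.1 a c) = (1 : Matrix (Fin (n - b)) (Fin (n - b)) (Rm p m)) a c
    simpa [Matrix.one_apply] using hm'
  · rintro ⟨h, -, rfl⟩
    refine (image_congr fun w hw => ?_).trans image_id
    obtain ⟨i, hi, rfl⟩ := mem_image.1 hw
    exact blk_smul_stdPair _ h (by simpa using hi)

theorem blk_injective {k : ℕ} (hk : k ≤ n) :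
    Function.Injective (blk (R := Polynomial (ZMod p)) hk) := by
  intro g g' h
  refine Subtype.ext (Matrix.ext fun a c => ?_)
  have := congrFun (congrFun (congrArg Subtype.val h) (blkEquiv hk (Sum.inl a))) (blkEquiv hk (Sum.inl c))
  simpa [blk_coe] using this

theorem blk_mem_ker {k : ℕ} (hk : k ≤ n)
    {h : SpecialLinearGroup (Fin k) (Polynomial (ZMod p))} (hh : h ∈ Ker p k m) :
    blk hk h ∈ Ker p n m := by
  rw [MonoidHom.mem_ker] at hh ⊢
  refine Subtype.ext ?_
  have hh' : h.1.map (red p m) = 1 := congrArg Subtype.val hh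
  show (blk hk h).1.map (red p m) = 1
  rw [blk_coe, ← Matrix.submatrix_map, fromBlocks_map, hh', Matrix.map_zero _ (map_zero _),
    Matrix.map_zero _ (map_zero _), Matrix.map_one _ (map_zero _) (map_one _), fromBlocks_one,
    submatrix_one_equiv]

/-- Transvections generate. -/
theorem closure_transvection :
    Subgroup.closure {g : SpecialLinearGroup (Fin n) (Polynomial (ZMod p)) |
      ∃ (i j : Fin n) (_ : i ≠ j) (f : Polynomial (ZMod p)), g.1 = Matrix.transvection i j f} =
      ⊤ := by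
  refine eq_top_iff.2 fun g _ => ?_
  have hg : g ∈ fixGroup (Polynomial (ZMod p)) (univ : Finset (Fin n)) :=
    mem_fixGroup.2 fun k hk => absurd (mem_univ k) hk
  refine Subgroup.closure_mono ?_ (fix_le_tvGroup red_poly univ hg)
  rintro _ ⟨a, c, hac, x, -, -, rfl⟩
  exact ⟨a, c, hac, x, rfl⟩

end Vale.Agent.P067.Alld.Van
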