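import Vale.Agent.P067.Alld.A.Quot
import Vale.Agent.P067.Alld.Van.Delta
import Vale.Agent.P067.Alld.Van.Eq
import Vale.Agent.P067.Alld.Van.Frames

/-!
P067, part I: the action of `SL_n(F[t])` on the homology of `Δ / N_m` by comparison maps.
-/

namespace Vale.Agent.P067.Alld.Van

open Finset Sparse

variable {p n m : ℕ} [Fact p.Prime]

/-- `SL_n(F[t])`. -/
abbrev SLA (p n : ℕ) [Fact p.Prime] : Type :=
  Matrix.SpecialLinearGroup (Fin n) (Polynomial (ZMod p))

theorem mem_nGam_iff (g : GamInf p n) : g ∈ NGam p n m ↔ g.1 ∈ Ker p n m := by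
  rw [MonoidHom.mem_ker, MonoidHom.mem_ker, Subtype.ext_iff]
  rfl

theorem ker_le_gam (hn : 3 ≤ n) (hm : 1 ≤ m) {u : SLA p n} (hu : u ∈ Ker p n m) :
    u ∈ GamInf p n := by
  refine (gamEqStmt n hn p u).2 ⟨fun a => ?_, fun a b hab => ?_⟩
  all_goals
    have hu' := congrArg (fun g : Matrix.SpecialLinearGroup (Fin n) (Rm p m) => g.1) (MonoidHom.mem_ker.1 hu)
  · have h := congrFun (congrFun hu' a) a
    change red p m (u a a) = _ at h
    rw [show ((1 : Matrix.SpecialLinearGroup (Fin n) (Rm p m)).1) a a = red p m 1 by simp,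
      ← sub_eq_zero, ← map_sub, AdjoinRoot.mk_eq_zero] at h
    have := (Polynomial.X_pow_dvd_iff.1 h) 0 hm
    simpa [sub_eq_zero] using this
  · have h := congrFun (congrFun hu' a) b
    change red p m (u a b) = _ at h
    rw [show ((1 : Matrix.SpecialLinearGroup (Fin n) (Rm p m)).1) a b = 0 by simp [hab.ne],
      AdjoinRoot.mk_eq_zero] at h
    exact (Polynomial.X_pow_dvd_iff.1 h) 0 hm

/-- Standing hypotheses. -/
structure Ctx (p n m D : ℕ) [Fact p.Prime] : Prop where
  hn : 3 ≤ n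
  hm : 2 ≤ m
  odd : Odd p
  ac : Acyc (IsFace (hInf p n)) (D + 1)

/-- Conjugation of `N_m` by an element of `SL_n(F[t])`. -/
noncomputable def conjN (hn : 3 ≤ n) (hm : 1 ≤ m) (u : SLA p n) : NGam p n m →* NGam p n m where
  toFun h := ⟨⟨u * h.1.1 * u⁻¹, ker_le_gam hn hm
      ((inferInstance : (Ker p n m).Normal).conj_mem _ ((mem_nGam_iff h.1).1 h.2) u)⟩,
    (mem_nGam_iff _).2
      ((inferInstance : (Ker p n m).Normal).conj_mem _ ((mem_nGam_iff h.1).1 h.2) u)⟩
  map_one' := Subtype.ext (Subtype.ext (by simp))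
  map_mul' g h := Subtype.ext (Subtype.ext (by simp [mul_assoc]))

@[simp] theorem conjN_coe (hn : 3 ≤ n) (hm : 1 ≤ m) (u : SLA p n) (h : NGam p n m) :
    (conjN hn hm u h).1.1 = u * h.1.1 * u⁻¹ := rfl

/-- A relative cycle. -/
def Cyc {α : Type*} [DecidableEq α] (G : Type*) [Group G] [MulAction G α] (F : Finset α → Prop)
    (i : ℕ) (c : Ch α) : Prop :=
  c ∈ Cs F i ∧ bd c ∈ Rel G α

variable {D i : ℕ}

/-- The class of `c` is fixed by `u`. -/
def Fixed (C : Ctx p n m D) (i : ℕ) (c : Ch (Vert (hInf p n))) (u : SLA p n) : Prop :=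
  ∀ f, IsMap (⊥ : Subgroup (NGam p n m)) (conjN C.hn (by have := C.hm; omega) u)
      (IsFace (hInf p n)) (IsFace (hInf p n)) (D + 1) f →
    f c - c ∈ Bd (NGam p n m) (Vert (hInf p n)) (IsFace (hInf p n)) i

theorem cx_nGam : Cx (NGam p n m) (IsFace (hInf p n)) := cx_restrict cx_delta _

theorem van_bot (C : Ctx p n m D) :
    ∀ j ≤ D + 1, Van (⊥ : Subgroup (NGam p n m)) (IsFace (hInf p n)) j := fun _ hj =>
  van_of_lfOdd cx_nGam lfOdd_bot C.ac hj

theorem bd_top_le {G : Type*} [Group G] {α : Type*} [DecidableEq α] [MulAction G α]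
    (F : Finset α → Prop) (k : ℕ) : Bd (⊤ : Subgroup G) α F k ≤ Bd G α F k :=
  sup_le_sup le_rfl (rel_le _)

theorem map_bd_self {f : Ch (Vert (hInf p n)) →ₗ[ZMod 2] Ch (Vert (hInf p n))}
    {θ : NGam p n m →* NGam p n m} (hi : i ≤ D)
    (hf : IsMap (⊥ : Subgroup (NGam p n m)) θ (IsFace (hInf p n)) (IsFace (hInf p n)) (D + 1) f)
    {x : Ch (Vert (hInf p n))}
    (hx : x ∈ Bd (NGam p n m) (Vert (hInf p n)) (IsFace (hInf p n)) i) :
    f x ∈ Bd (NGam p n m) (Vert (hInf p n)) (IsFace (hInf p n)) i :=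
  bd_top_le _ _ (hf.map_bd (B := ⊤) bot_le (fun _ => Subgroup.mem_top _) (by omega) hx)

theorem maps_agree (C : Ctx p n m D) (hi : i ≤ D) {c : Ch (Vert (hInf p n))}
    (hc : Cyc (NGam p n m) (IsFace (hInf p n)) i c) {θ θ' : NGam p n m →* NGam p n m}
    (hθ : θ = θ') {f f' : Ch (Vert (hInf p n)) →ₗ[ZMod 2] Ch (Vert (hInf p n))}
    (hf : IsMap (⊥ : Subgroup (NGam p n m)) θ (IsFace (hInf p n)) (IsFace (hInf p n)) (D + 1) f)
    (hf' : IsMap (⊥ : Subgroup (NGam p n m)) θ' (IsFace (hInf p n)) (IsFace (hInf p n)) (D + 1) f') :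
    f c - f' c ∈ Bd (NGam p n m) (Vert (hInf p n)) (IsFace (hInf p n)) i := by
  subst hθ
  exact bd_top_le _ _ (homotopic θ cx_nGam cx_nGam (free_delta C.hm _) (van_bot C)
    (fun g a ha => by simp [Subgroup.mem_bot.1 ha]) bot_le (fun _ => Subgroup.mem_top _) hf hf'
    (by omega) hc.1 hc.2)

theorem exists_conjMap (C : Ctx p n m D) (u : SLA p n) :
    ∃ f, IsMap (⊥ : Subgroup (NGam p n m)) (conjN C.hn (by have := C.hm; omega) u)
      (IsFace (hInf p n)) (IsFace (hInf p n)) (D + 1) f := exists_map _ cx_nGam cx_nGam (free_delta C.hm _) C.ac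

theorem fixed_of_exists (C : Ctx p n m D) (hi : i ≤ D) {c : Ch (Vert (hInf p n))}
    (hc : Cyc (NGam p n m) (IsFace (hInf p n)) i c) {u : SLA p n}
    {f : Ch (Vert (hInf p n)) →ₗ[ZMod 2] Ch (Vert (hInf p n))}
    (hf : IsMap (⊥ : Subgroup (NGam p n m)) (conjN C.hn (by have := C.hm; omega) u)
      (IsFace (hInf p n)) (IsFace (hInf p n)) (D + 1) f)
    (h : f c - c ∈ Bd (NGam p n m) (Vert (hInf p n)) (IsFace (hInf p n)) i) :
    Fixed C i c u := fun f' hf' => by
  rw [← sub_add_sub_cancel (f' c) (f c) c]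
  exact add_mem (maps_agree C hi hc rfl hf' hf) h

/-- The fixed elements form a subgroup. -/
theorem exists_fixedGroup (C : Ctx p n m D) (hi : i ≤ D) {c : Ch (Vert (hInf p n))}
    (hc : Cyc (NGam p n m) (IsFace (hInf p n)) i c) :
    ∃ S : Subgroup (SLA p n), ∀ u, u ∈ S ↔ Fixed C i c u := by
  have hm : 1 ≤ m := by have := C.hm; omega
  refine ⟨{ carrier := {u | Fixed C i c u}, one_mem' := ?_, mul_mem' := ?_, inv_mem' := ?_ },
    fun u => Iff.rfl⟩
  · intro u v hu hv f hf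
    obtain ⟨a, ha⟩ := exists_conjMap C u
    obtain ⟨b, hb⟩ := exists_conjMap C v
    have h1 := maps_agree C hi hc ?_ hf (hb.comp ha)
    · have h2 := map_bd_self hi ha (hv b hb)
      rw [map_sub] at h2
      have := add_mem h1 (add_mem h2 (hu a ha))
      rwa [sub_add_sub_cancel, LinearMap.comp_apply, sub_add_sub_cancel] at this
    · exact MonoidHom.ext fun h => Subtype.ext (Subtype.ext (by simp [mul_assoc]))
  · intro f hf
    have := maps_agree C hi hc ?_ hf (isMap_refl cx_nGam)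
    · simpa using this
    · exact MonoidHom.ext fun h => Subtype.ext (Subtype.ext (by simp))
  · intro u hu f' hf'
    obtain ⟨a, ha⟩ := exists_conjMap C u
    have h1 := maps_agree C hi hc ?_ (ha.comp hf') (isMap_refl cx_nGam)
    · have h2 := map_bd_self hi hf' (hu a ha)
      rw [map_sub] at h2
      have := sub_mem h1 h2
      simpa using this
    · exact MonoidHom.ext fun h => Subtype.ext (Subtype.ext (by simp [mul_assoc]))

theorem act_mem_bd_of_fixed (C : Ctx p n m D) (hi : i ≤ D) {c : Ch (Vert (hInf p n))}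
    (hc : Cyc (NGam p n m) (IsFace (hInf p n)) i c) (g : GamInf p n) (h : Fixed C i c g.1) :
    act g c - c ∈ Bd (NGam p n m) (Vert (hInf p n)) (IsFace (hInf p n)) i := by
  refine h _ ⟨fun x y => ?_, fun k _ x hx => act_mem_cs cx_delta g hx,
    fun k _ x _ => bd_act g x, by simp [act_single, img_empty]⟩
  have e : act g (act x y) = act (conjN C.hn (by have := C.hm; omega) g.1 x) (act g y) := by
    rw [act_coe, act_coe, ← act_mul, ← act_mul]
    congr 2
    exact Subtype.ext (by simp [mul_assoc])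
  rw [e, sub_self]
  exact zero_mem _

end Vale.Agent.P067.Alld.Van
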