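import Vale.Agent.P067.Alld.Stmt

/-!
P067, part I (vanishing): pairs of a vector and a functional, frames, and the congruence kernels.
-/

namespace Vale.Agent.P067.Alld.Van

open Finset Matrix

section

variable (R : Type) [CommRing R] (n : ℕ)

/-- A vector and a functional with value one on it. -/
def FPair : Type := {w : (Fin n → R) × (Fin n → R) // w.2 ⬝ᵥ w.1 = 1}

noncomputable instance FPair.decEq : DecidableEq (FPair R n) := Classical.decEq _

variable {R n}

/-- The functional of `w` kills the vector of `w'`. -/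
def Orth (w w' : FPair R n) : Prop := w.1.2 ⬝ᵥ w'.1.1 = 0

/-- Frames: at most `n - 1` pairwise orthogonal pairs. -/
def IsFrame (σ : Finset (FPair R n)) : Prop :=
  σ.card ≤ n - 1 ∧ ∀ w ∈ σ, ∀ w' ∈ σ, w ≠ w' → Orth w w'

instance : SMul (SpecialLinearGroup (Fin n) R) (FPair R n) :=
  ⟨fun g w => ⟨(g.1 *ᵥ w.1.1, w.1.2 ᵥ* (g⁻¹).1), by
    have h : (g⁻¹).1 * g.1 = 1 := congrArg Subtype.val (inv_mul_cancel g)
    rw [← dotProduct_mulVec, mulVec_mulVec, h, one_mulVec]
    exact w.2⟩⟩

instance : MulAction (SpecialLinearGroup (Fin n) R) (FPair R n) where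
  one_smul w := Subtype.ext (Prod.ext (by show (1 : SpecialLinearGroup (Fin n) R).1 *ᵥ _ = _; simp)
    (by show _ ᵥ* ((1 : SpecialLinearGroup (Fin n) R)⁻¹).1 = _; simp))
  mul_smul g h w := Subtype.ext (Prod.ext
    (by show (g * h).1 *ᵥ _ = g.1 *ᵥ (h.1 *ᵥ _); simp [mulVec_mulVec])
    (by show _ ᵥ* ((g * h)⁻¹).1 = (_ ᵥ* (h⁻¹).1) ᵥ* (g⁻¹).1
        simp [_root_.mul_inv_rev, vecMul_vecMul]))

/-- Change of scalars. -/
def FPair.map {S : Type} [CommRing S] (f : R →+* S) (w : FPair R n) : FPair S n :=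
  ⟨(f ∘ w.1.1, f ∘ w.1.2), by rw [← RingHom.map_dotProduct, w.2, map_one]⟩

variable (R) in
/-- The standard pair of an index. -/
def stdPair (i : Fin n) : FPair R n := ⟨(Pi.single i 1, Pi.single i 1), by simp⟩

variable (R n) in
/-- The standard frame: the last `b` indices. -/
noncomputable def stdFrame (b : ℕ) : Finset (FPair R n) :=
  (univ.filter fun i : Fin n => n - b ≤ (i : ℕ)).image (stdPair R)

end

section Block

variable {R : Type} [CommRing R] {n k : ℕ}

/-- The splitting of `Fin n` at `k`. -/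
def blkEquiv (hk : k ≤ n) : Fin k ⊕ Fin (n - k) ≃ Fin n :=
  finSumFinEquiv.trans (finCongr (Nat.add_sub_cancel' hk))

/-- Special linear matrices on the first `k` indices. -/
def blk (hk : k ≤ n) : SpecialLinearGroup (Fin k) R →* SpecialLinearGroup (Fin n) R where
  toFun g := ⟨(fromBlocks g.1 0 0 1).submatrix (blkEquiv hk).symm (blkEquiv hk).symm, by
    rw [det_submatrix_equiv_self, det_fromBlocks_zero₂₁, det_one, mul_one]; exact g.2⟩
  map_one' := Subtype.ext (by simp [submatrix_one_equiv])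
  map_mul' g h := Subtype.ext (by
    refine Eq.trans ?_ (submatrix_mul_equiv _ _ _ _ _).symm
    simp [fromBlocks_multiply])

end Block

noncomputable section Kernel

variable (p : ℕ) [Fact p.Prime]

/-- Reduction modulo `t ^ m`. -/
abbrev red (m : ℕ) : Polynomial (ZMod p) →+* Rm p m := AdjoinRoot.mk _

/-- The congruence kernel. -/
abbrev Ker (n m : ℕ) : Subgroup (SpecialLinearGroup (Fin n) (Polynomial (ZMod p))) :=
  (SpecialLinearGroup.map (red p m)).ker

end Kernel

end Vale.Agent.P067.Alld.Van
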