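import Vale.Agent.P067.Alld.Van.Defs

/-!
P067, part I-a: acyclicity from common neighbours.
-/

namespace Vale.Agent.P067.Alld.Van

open Finset Sparse

/-- The number of vertices met in the recursion. -/
def nbrBound : ℕ → ℕ
  | 0 => 1
  | k + 1 => (k + 1) + (k + 1) * nbrBound k + 1

private theorem nbrBound_mono {i j : ℕ} (h : i ≤ j) : nbrBound i ≤ nbrBound j :=
  monotone_nat_of_le_succ (fun k => by
    show nbrBound k ≤ (k + 1) + (k + 1) * nbrBound k + 1
    have := Nat.le_mul_of_pos_left (nbrBound k) (show 0 < k + 1 by omega)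
    omega) h

section

set_option linter.unusedSectionVars false

variable {V : Type} [DecidableEq V] {F : Finset V → Prop} {k : ℕ}

private theorem mem_cs {x : Ch V} : x ∈ Cs F k ↔ On (fun σ => F σ ∧ σ.card = k) x :=
  (Finsupp.mem_supported _ _).trans ⟨fun h _ hσ => h hσ, fun h _ hσ => h _ hσ⟩

private theorem eq_on_cs {L L' : Ch V →ₗ[ZMod 2] Ch V} {z : Ch V} (hz : z ∈ Cs F k)
    (h : ∀ σ, F σ → σ.card = k → L (Finsupp.single σ 1) = L' (Finsupp.single σ 1)) :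
    L z = L' z := by
  rw [← Finsupp.sum_single z, Finsupp.sum, map_sum, map_sum]
  refine sum_congr rfl fun σ hσ => ?_
  rw [← mul_one (z σ), ← smul_eq_mul, ← Finsupp.smul_single, map_smul, map_smul,
    h σ (mem_cs.1 hz σ hσ).1 (mem_cs.1 hz σ hσ).2]

private theorem step {R : V → V → Prop} {lim N : ℕ} (hlim : k + 2 ≤ lim)
    (hnbr : ∀ s : Finset V, s.card ≤ (k + 1) + (k + 1) * N → ∃ w, w ∉ s ∧ ∀ x ∈ s, R w x ∧ R x w)
    (hF : ∀ σ, F σ ↔ (σ.card ≤ lim ∧ ∀ x ∈ σ, ∀ y ∈ σ, x ≠ y → R x y))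
    {H : Ch V →ₗ[ZMod 2] Ch V}
    (h1 : ∀ σ, F σ → σ.card = k → H (Finsupp.single σ 1) ∈ Cs F (k + 1) ∧
      ∃ t : Finset V, t.card ≤ N ∧ On (· ⊆ t) (H (Finsupp.single σ 1)))
    (h2 : ∀ z ∈ Cs F k, bd z = 0 → bd (H z) = z) {σ : Finset V} (hσ : F σ)
    (hc : σ.card = k + 1) :
    ∃ y : Ch V, y ∈ Cs F (k + 1 + 1) ∧
      (∃ t : Finset V, t.card ≤ (k + 1) + (k + 1) * N + 1 ∧ On (· ⊆ t) y) ∧
      bd y = Finsupp.single σ 1 + H (bd (Finsupp.single σ 1)) := by
  classical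
  have hface : ∀ x ∈ σ, F (σ.erase x) ∧ (σ.erase x).card = k := fun x hx =>
    ⟨(hF _).2 ⟨card_erase_le.trans ((hF σ).1 hσ).1, fun a ha b hb =>
      ((hF σ).1 hσ).2 a (mem_erase.1 ha).2 b (mem_erase.1 hb).2⟩,
      by rw [card_erase_of_mem hx, hc]; rfl⟩
  have hex : ∀ x, ∃ t : Finset V, x ∈ σ →
      t.card ≤ N ∧ On (· ⊆ t) (H (Finsupp.single (σ.erase x) 1)) := fun x => by
    by_cases hx : x ∈ σ
    · exact ((h1 _ (hface x hx).1 (hface x hx).2).2).imp fun t ht _ => ht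
    · exact ⟨∅, fun h => absurd h hx⟩
  choose t ht using hex
  have hbσ : bd (Finsupp.single σ 1) ∈ Cs F k := by
    rw [bd_single]
    exact sum_mem fun x hx => mem_cs.2 (On.single (hface x hx))
  have hTc : (σ ∪ σ.biUnion t).card ≤ (k + 1) + (k + 1) * N := by
    refine (card_union_le _ _).trans (add_le_add hc.le (card_biUnion_le.trans ?_))
    refine (sum_le_sum fun x hx => (ht x hx).1).trans (le_of_eq ?_)
    rw [sum_const, smul_eq_mul, hc]
  have hzcs : Finsupp.single σ 1 + H (bd (Finsupp.single σ 1)) ∈ Cs F (k + 1) := by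
    refine add_mem (mem_cs.2 (On.single ⟨hσ, hc⟩)) ?_
    rw [bd_single, map_sum]
    exact sum_mem fun x hx => (h1 _ (hface x hx).1 (hface x hx).2).1
  have hzT : On (· ⊆ σ ∪ σ.biUnion t) (Finsupp.single σ 1 + H (bd (Finsupp.single σ 1))) := by
    refine On.add (On.single (P := fun τ => τ ⊆ σ ∪ σ.biUnion t) (c := (1 : ZMod 2))
      (subset_union_left : σ ⊆ σ ∪ σ.biUnion t)) ?_
    rw [bd_single, map_sum]
    exact On.sum fun x hx => (ht x hx).2.mono fun τ hτ =>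
      hτ.trans ((subset_biUnion_of_mem t hx).trans subset_union_right)
  obtain ⟨w, hwT, hw⟩ := hnbr _ hTc
  refine ⟨cone w (Finsupp.single σ 1 + H (bd (Finsupp.single σ 1))), mem_cs.2 fun τ hτ => ?_,
    ⟨insert w (σ ∪ σ.biUnion t), (card_insert_le _ _).trans (Nat.succ_le_succ hTc), ?_⟩,
    bd_cone_of_cycle w (by rw [map_add, h2 _ hbσ (bd_bd _), add_self_eq_zero'])⟩
  · obtain ⟨ρ, hρ, hwρ, rfl⟩ := mem_support_cone hτ
    obtain ⟨hρF, hρc⟩ := mem_cs.1 hzcs ρ hρ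
    have hcard : (insert w ρ).card = k + 1 + 1 := by rw [card_insert_of_notMem hwρ, hρc]
    refine ⟨(hF _).2 ⟨by omega, fun a ha b hb hne => ?_⟩, hcard⟩
    rcases mem_insert.1 ha with ea | ha'
    · rcases mem_insert.1 hb with eb | hb'
      · exact absurd (ea.trans eb.symm) hne
      · exact ea ▸ (hw b (hzT ρ hρ hb')).1
    · rcases mem_insert.1 hb with eb | hb'
      · exact eb ▸ (hw a (hzT ρ hρ ha')).2
      · exact ((hF ρ).1 hρF).2 a ha' b hb' hne
  · intro τ hτ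
    obtain ⟨ρ, hρ, -, rfl⟩ := mem_support_cone hτ
    exact insert_subset_insert w (hzT ρ hρ)

end

/-- A complex of pairwise compatible sets in which any `B` vertices have a common new neighbour. -/
theorem exists_bound_acyc (D : ℕ) : ∃ B : ℕ, ∀ {V : Type} [DecidableEq V] (R : V → V → Prop)
    (lim : ℕ), D + 1 ≤ lim →
    (∀ s : Finset V, s.card ≤ B → ∃ w, w ∉ s ∧ ∀ x ∈ s, R w x ∧ R x w) →
    Acyc (fun σ : Finset V => σ.card ≤ lim ∧ ∀ x ∈ σ, ∀ y ∈ σ, x ≠ y → R x y) D := by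
  refine ⟨nbrBound D, fun {V} _ R lim hlim hnbr => ?_⟩
  classical
  set F : Finset V → Prop := fun σ => σ.card ≤ lim ∧ ∀ x ∈ σ, ∀ y ∈ σ, x ≠ y → R x y with hF
  have hmem : ∀ {k : ℕ} {x : Ch V}, x ∈ Cs F k ↔ On (fun σ => F σ ∧ σ.card = k) x := fun {k x} =>
    (Finsupp.mem_supported _ _).trans ⟨fun h σ hσ => h hσ, fun h σ hσ => h σ hσ⟩
  have hlin : ∀ {k : ℕ} {z : Ch V} (L L' : Ch V →ₗ[ZMod 2] Ch V), z ∈ Cs F k →
      (∀ σ, F σ → σ.card = k → L (Finsupp.single σ 1) = L' (Finsupp.single σ 1)) → L z = L' z := by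
    intro k z L L' hz h
    rw [← Finsupp.sum_single z, Finsupp.sum, map_sum, map_sum]
    refine sum_congr rfl fun σ hσ => ?_
    rw [← mul_one (z σ), ← smul_eq_mul, ← Finsupp.smul_single, map_smul, map_smul,
      h σ (hmem.1 hz σ hσ).1 (hmem.1 hz σ hσ).2]
  suffices key : ∀ k ≤ D, ∃ H : Ch V →ₗ[ZMod 2] Ch V,
      (∀ σ, F σ → σ.card = k → H (Finsupp.single σ 1) ∈ Cs F (k + 1) ∧
        ∃ t : Finset V, t.card ≤ nbrBound k ∧ On (· ⊆ t) (H (Finsupp.single σ 1))) ∧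
      ∀ z ∈ Cs F k, bd z = 0 → bd (H z) = z by
    intro k hk z hz hcyc
    obtain ⟨H, h1, h2⟩ := key k hk
    refine ⟨H z, ?_, h2 z hz hcyc⟩
    rw [← Finsupp.sum_single z, Finsupp.sum, map_sum]
    refine sum_mem fun σ hσ => ?_
    rw [← mul_one (z σ), ← smul_eq_mul, ← Finsupp.smul_single, map_smul]
    exact Submodule.smul_mem _ _ (h1 σ (hmem.1 hz σ hσ).1 (hmem.1 hz σ hσ).2).1
  intro k
  induction k with
  | zero =>
    intro _
    obtain ⟨w, -, -⟩ := hnbr ∅ (Nat.zero_le _)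
    refine ⟨cone w, fun σ hσ hc => ?_, fun z _ hcyc => bd_cone_of_cycle w hcyc⟩
    have hFw : F {w} := ⟨by rw [card_singleton]; omega, fun x hx y hy hne =>
      absurd ((mem_singleton.1 hx).trans (mem_singleton.1 hy).symm) hne⟩
    rw [card_eq_zero.1 hc, cone_single, if_neg (notMem_empty w), insert_empty_eq]
    exact ⟨hmem.2 (On.single ⟨hFw, card_singleton w⟩), {w}, le_rfl,
      On.single (subset_refl _)⟩
  | succ k ih =>
    intro hk
    obtain ⟨H, h1, h2⟩ := ih (by omega)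
    have hB : (k + 1) + (k + 1) * nbrBound k + 1 ≤ nbrBound D :=
      nbrBound_mono (i := k + 1) hk
    have hex : ∀ σ, ∃ y : Ch V, F σ → σ.card = k + 1 → y ∈ Cs F (k + 1 + 1) ∧
        (∃ t : Finset V, t.card ≤ nbrBound (k + 1) ∧ On (· ⊆ t) y) ∧
        bd y = Finsupp.single σ 1 + H (bd (Finsupp.single σ 1)) := fun σ => by
      by_cases hσ : F σ ∧ σ.card = k + 1
      · exact (step (N := nbrBound k) (by omega) (fun s hs => hnbr s (by omega))
          (fun _ => Iff.rfl) h1 h2 hσ.1 hσ.2).imp fun y hy _ _ => hy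
      · exact ⟨0, fun a b => absurd ⟨a, b⟩ hσ⟩
    choose y hy using hex
    have hsingle : ∀ σ, Finsupp.linearCombination (ZMod 2) y (Finsupp.single σ (1 : ZMod 2)) = y σ :=
      fun σ => by simp
    refine ⟨Finsupp.linearCombination (ZMod 2) y, fun σ hσ hc => ?_, fun z hz hcyc => ?_⟩
    · rw [hsingle]
      exact ⟨(hy σ hσ hc).1, (hy σ hσ hc).2.1⟩
    · have e := hlin (bd.comp (Finsupp.linearCombination (ZMod 2) y))
        (LinearMap.id + H.comp bd) hz fun σ hσ hc => by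
          simp only [LinearMap.comp_apply, LinearMap.add_apply, LinearMap.id_apply, hsingle]
          exact (hy σ hσ hc).2.2
      simpa [hcyc] using e

end Vale.Agent.P067.Alld.Van
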