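import Vale.Agent.P067.Alld.Van.Defs

/-!
P067, part I-a: pushforward to the orbit complex.
-/

namespace Vale.Agent.P067.Alld.Van

set_option linter.unusedSectionVars false

open Finset Sparse

variable {α β : Type*} [DecidableEq α] [DecidableEq β] {G G' : Type*} [Group G] [Group G']
  [MulAction G α] [MulAction G' β] {F : Finset α → Prop} {F' : Finset β → Prop} {D k : ℕ}

section Push

variable (π : α → β)

/-- Pushforward of chains. -/
noncomputable def push : Ch α →ₗ[ZMod 2] Ch β := Finsupp.lmapDomain _ _ fun σ => σ.image π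

private theorem push_single (σ : Finset α) :
    push π (Finsupp.single σ 1) = Finsupp.single (σ.image π) 1 := Finsupp.mapDomain_single

private theorem eq_on {M : Type*} [AddCommGroup M] [Module (ZMod 2) M] {P : Finset α → Prop}
    {L L' : Ch α →ₗ[ZMod 2] M}
    (h : ∀ σ, P σ → L (Finsupp.single σ 1) = L' (Finsupp.single σ 1)) {z : Ch α} (hz : On P z) :
    L z = L' z := by
  rw [← Finsupp.sum_single z, Finsupp.sum, map_sum, map_sum]
  refine sum_congr rfl fun σ hσ => ?_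
  rw [← mul_one (z σ), ← smul_eq_mul, ← Finsupp.smul_single, map_smul, map_smul, h σ (hz σ hσ)]

omit π in
private theorem mem_cs {x : Ch α} :
    x ∈ Cs F k ↔ On (fun σ => F σ ∧ σ.card = k) x :=
  (Finsupp.mem_supported _ _).trans ⟨fun h _ hσ => h hσ, fun h _ hσ => h _ hσ⟩

omit π in
private theorem bd_mem_cs (hdown : ∀ σ τ, τ ⊆ σ → F σ → F τ) {j : ℕ} {x : Ch α}
    (hx : x ∈ Cs F (j + 1)) : bd x ∈ Cs F j := by
  refine mem_cs.2 fun σ hσ => ?_
  obtain ⟨τ, hτ, a, ha, rfl⟩ := mem_support_bd hσ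
  obtain ⟨hF, hc⟩ := mem_cs.1 hx τ hτ
  exact ⟨hdown τ _ (erase_subset _ _) hF, by rw [card_erase_of_mem ha, hc]; rfl⟩

private theorem push_mem_cs (hinj : ∀ σ, F σ → Set.InjOn π (σ : Set α))
    (himg : ∀ σ, F σ → F' (σ.image π)) {j : ℕ} {x : Ch α} (hx : x ∈ Cs F j) :
    push π x ∈ Cs F' j := by
  classical
  refine (mem_cs (F := F')).2 fun σ hσ => ?_
  obtain ⟨τ, hτ, rfl⟩ := mem_image.1 (Finsupp.mapDomain_support hσ)
  obtain ⟨hF, hc⟩ := mem_cs.1 hx τ hτ
  exact ⟨himg τ hF, by rw [card_image_of_injOn (hinj τ hF), hc]⟩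

private theorem exists_lift (hinj : ∀ σ, F σ → Set.InjOn π (σ : Set α))
    (hsurj : ∀ τ, F' τ → ∃ σ, F σ ∧ σ.image π = τ) {j : ℕ} {y : Ch β} (hy : y ∈ Cs F' j) :
    ∃ x ∈ Cs F j, push π x = y := by
  classical
  choose! s hs using hsurj
  have hy' := (mem_cs (F := F')).1 hy
  refine ⟨∑ τ ∈ y.support, y τ • Finsupp.single (s τ) 1, sum_mem fun τ hτ =>
    Submodule.smul_mem _ _ (mem_cs.2 (On.single ?_)), ?_⟩
  · obtain ⟨hF, hc⟩ := hy' τ hτ
    obtain ⟨h1, h2⟩ := hs τ hF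
    exact ⟨h1, by rw [← card_image_of_injOn (hinj _ h1), h2, hc]⟩
  · rw [map_sum]
    conv_rhs => rw [← Finsupp.sum_single y, Finsupp.sum]
    refine sum_congr rfl fun τ hτ => ?_
    rw [map_smul, push_single, (hs τ (hy' τ hτ).1).2, Finsupp.smul_single, smul_eq_mul, mul_one]

theorem push_rel (hπ : ∀ (g : G) a, π (g • a) = π a) {x : Ch α} (hx : x ∈ Rel G α) :
    push π x = 0 := by
  refine (Submodule.span_le.2 ?_ : Rel G α ≤ LinearMap.ker (push π)) hx
  rintro _ ⟨⟨g, σ⟩, rfl⟩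
  rw [SetLike.mem_coe, LinearMap.mem_ker, map_add, push_single, push_single, img, image_image,
    show (π ∘ fun a => g • a) = π from funext (hπ g)]
  exact add_self_eq_zero' _

theorem bd_push (hinj : ∀ σ, F σ → Set.InjOn π (σ : Set α)) {x : Ch α} (hx : x ∈ Cs F k) :
    bd (push π x) = push π (bd x) := by
  refine eq_on (P := fun σ => F σ) (L := bd.comp (push π)) (L' := (push π).comp bd) (fun σ hσ => ?_)
    ((mem_cs.1 hx).mono fun σ h => h.1)
  simp only [LinearMap.comp_apply, push_single, bd_single, map_sum]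
  rw [sum_image (hinj σ hσ)]
  refine sum_congr rfl fun a ha => ?_
  congr 1
  ext b
  simp only [mem_erase, mem_image]
  constructor
  · rintro ⟨hb, c, hc, rfl⟩
    exact ⟨c, ⟨fun e => hb (e ▸ rfl), hc⟩, rfl⟩
  · rintro ⟨c, ⟨hne, hc⟩, rfl⟩
    exact ⟨fun e => hne (hinj σ hσ hc ha e), c, hc, rfl⟩

/-- The fibres of `π` on faces are the orbits, so its kernel consists of relations. -/
theorem mem_rel_of_push
    (hfib : ∀ σ τ, F σ → F τ → σ.card = k → τ.card = k → σ.image π = τ.image π →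
      ∃ g : G, img g σ = τ) {x : Ch α} (hx : x ∈ Cs F k) (h : push π x = 0) :
    x ∈ Rel G α := by
  classical
  let s : Finset β → Finset α := fun τ =>
    if h : ∃ σ, (F σ ∧ σ.card = k) ∧ σ.image π = τ then h.choose else ∅
  let sec : Ch β →ₗ[ZMod 2] Ch α := Finsupp.lmapDomain _ _ s
  have key : x + sec (push π x) ∈ Rel G α := by
    rw [← Finsupp.sum_single x, Finsupp.sum, map_sum, map_sum, ← sum_add_distrib]
    refine sum_mem fun σ hσ => ?_
    have hσ' := mem_cs.1 hx σ hσ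
    have hex : ∃ ρ, (F ρ ∧ ρ.card = k) ∧ ρ.image π = σ.image π := ⟨σ, hσ', rfl⟩
    obtain ⟨⟨h1, h2⟩, h3⟩ := hex.choose_spec
    obtain ⟨g, hg⟩ := hfib σ hex.choose hσ'.1 h1 hσ'.2 h2 h3.symm
    have hs : sec (push π (Finsupp.single σ 1)) = Finsupp.single (img g σ) 1 := by
      rw [push_single, hg]
      simp only [sec, Finsupp.lmapDomain_apply, Finsupp.mapDomain_single, s, dif_pos hex]
    rw [← mul_one (x σ), ← smul_eq_mul, ← Finsupp.smul_single, map_smul, map_smul, hs, ← smul_add,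
      add_comm]
    exact Submodule.smul_mem _ _ (Submodule.subset_span ⟨(g, σ), rfl⟩)
  simpa [h] using key

/-- Acyclicity downstairs gives vanishing upstairs. -/
theorem van_of_acyc (hπ : ∀ (g : G) a, π (g • a) = π a)
    (hinj : ∀ σ, F σ → Set.InjOn π (σ : Set α)) (hdown : ∀ σ τ, τ ⊆ σ → F σ → F τ)
    (hsurj : ∀ τ, F' τ → ∃ σ, F σ ∧ σ.image π = τ) (himg : ∀ σ, F σ → F' (σ.image π))
    (hfib : ∀ σ τ, F σ → F τ → σ.card = k → τ.card = k → σ.image π = τ.image π →
      ∃ g : G, img g σ = τ)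
    (hk : k ≤ D) (hac : Acyc F' D) : Van G F k := by
  intro c hc hbd
  have hcyc : bd (push π c) = 0 := by rw [bd_push π hinj hc, push_rel π hπ hbd]
  obtain ⟨y, hy, hyc⟩ := hac k hk _ (push_mem_cs π hinj himg hc) hcyc
  obtain ⟨y', hy', rfl⟩ := exists_lift π hinj hsurj hy
  rw [bd_push π hinj hy'] at hyc
  have : c + bd y' ∈ Rel G α := mem_rel_of_push π hfib (add_mem hc (bd_mem_cs hdown hy'))
    (by rw [map_add, hyc, add_self_eq_zero'])
  rw [Bd, show c = bd y' + (c + bd y') by rw [add_left_comm, add_self_eq_zero', add_zero]]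
  exact Submodule.add_mem_sup (Submodule.mem_map_of_mem hy') this

/-- Vanishing upstairs gives acyclicity downstairs. -/
theorem acyc_of_van (hπ : ∀ (g : G) a, π (g • a) = π a)
    (hinj : ∀ σ, F σ → Set.InjOn π (σ : Set α)) (hdown : ∀ σ τ, τ ⊆ σ → F σ → F τ)
    (hsurj : ∀ τ, F' τ → ∃ σ, F σ ∧ σ.image π = τ) (himg : ∀ σ, F σ → F' (σ.image π))
    (hfib : ∀ j ≤ D, ∀ σ τ, F σ → F τ → σ.card = j → τ.card = j → σ.image π = τ.image π →
      ∃ g : G, img g σ = τ)
    (hvan : ∀ j ≤ D, Van G F j) : Acyc F' D := by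
  intro k hk c' hc' hcyc
  obtain ⟨c, hc, rfl⟩ := exists_lift π hinj hsurj hc'
  rw [bd_push π hinj hc] at hcyc
  have hrel : bd c ∈ Rel G α := by
    rcases k with _ | j
    · have : bd c = 0 := Finsupp.support_eq_empty.1 (eq_empty_of_forall_notMem fun σ hσ => by
        obtain ⟨τ, hτ, a, ha, -⟩ := mem_support_bd hσ
        simp [card_eq_zero.1 (mem_cs.1 hc τ hτ).2] at ha)
      rw [this]
      exact zero_mem _
    · exact mem_rel_of_push π (hfib j (by omega)) (bd_mem_cs hdown hc) hcyc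
  obtain ⟨_, ⟨y, hy, rfl⟩, r, hr, rfl⟩ := Submodule.mem_sup.1 (hvan k hk c hc hrel)
  refine ⟨push π y, push_mem_cs π hinj himg hy, ?_⟩
  rw [bd_push π hinj hy, map_add, push_rel π hπ hr, add_zero]

end Push

end Vale.Agent.P067.Alld.Van
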