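import Vale.Agent.P067.Alld.Van.Conj
import Vale.Agent.P067.Alld.Van.Push

/-!
P067, part I: averaging over the finite group `Γ / N_m` of odd order.
-/

set_option linter.unusedSectionVars false
set_option linter.unusedVariables false

namespace Vale.Agent.P067.Alld.Van

open Finset Sparse

variable {p n m : ℕ} [Fact p.Prime]

private theorem lower_pow {R : Type} [CommRing R] {B : Matrix (Fin n) (Fin n) R}
    (hB : ∀ a b, a ≤ b → B a b = 0) (k : ℕ) :
    ∀ a b : Fin n, (a : ℕ) < (b : ℕ) + k → (B ^ k) a b = 0 := by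
  induction k with
  | zero =>
    intro a b h
    rw [pow_zero, Matrix.one_apply_ne]
    intro e
    subst e
    omega
  | succ k ih =>
    intro a b h
    rw [pow_succ, Matrix.mul_apply]
    refine sum_eq_zero fun c _ => ?_
    rcases le_or_gt c b with hcb | hcb
    · rw [hB c b hcb, mul_zero]
    · rw [ih a c (by have : (b : ℕ) < c := hcb; omega), zero_mul]

theorem isPGroup_gm (hn : 3 ≤ n) : IsPGroup p (Gm p n m) := by
  intro x
  obtain ⟨g, rfl⟩ := toGm_surjective p n m x
  have hne : Nonempty (Fin n) := ⟨⟨0, by omega⟩⟩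
  set A : Matrix (Fin n) (Fin n) (Polynomial (ZMod p)) := g.1.1 - 1 with hA
  obtain ⟨hd, hl⟩ := (gamEqStmt n hn p g.1).1 g.2
  have h0 : (A.map (Polynomial.constantCoeff : Polynomial (ZMod p) →+* ZMod p)) ^ n = 0 := by
    ext a b
    refine lower_pow (fun a b hab => ?_) n a b (by have := a.isLt; omega)
    rw [Matrix.map_apply, hA, Matrix.sub_apply, Polynomial.constantCoeff_apply,
      Polynomial.coeff_sub]
    rcases hab.lt_or_eq with h | rfl
    · rw [hl a b h, Matrix.one_apply_ne h.ne, Polynomial.coeff_zero, sub_zero]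
    · rw [hd a, Matrix.one_apply_eq, Polynomial.coeff_one_zero, sub_self]
  have hdvd : ∀ a b, (Polynomial.X : Polynomial (ZMod p)) ∣ (A ^ n) a b := fun a b => by
    rw [Polynomial.X_dvd_iff]
    have := congrArg (fun M : Matrix (Fin n) (Fin n) (ZMod p) => M a b)
      ((map_pow (RingHom.mapMatrix (Polynomial.constantCoeff)) A n).trans h0)
    simpa [RingHom.mapMatrix_apply] using this
  choose M hM using hdvd
  obtain ⟨k, hk⟩ : ∃ k, n * m ≤ p ^ k :=
    ⟨n * m, (Nat.lt_pow_self (Fact.out : p.Prime).one_lt).le⟩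
  have hAn : A ^ n = (Polynomial.X : Polynomial (ZMod p)) • Matrix.of M :=
    Matrix.ext fun a b => by rw [Matrix.smul_apply, smul_eq_mul]; exact hM a b
  refine ⟨k, ?_⟩
  rw [← map_pow]
  refine (toGm_eq_one_iff p n m _).2 fun a b => ?_
  have hpow : (g ^ p ^ k).1.1 - 1 = A ^ (p ^ k) := by
    rw [hA, sub_pow_char_pow_of_commute (p := p) (h := Commute.one_right g.1.1), one_pow,
      SubgroupClass.coe_pow, Matrix.SpecialLinearGroup.coe_pow]
  rw [← Matrix.sub_apply, show ((g ^ p ^ k).1 : Matrix.SpecialLinearGroup (Fin n)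
    (Polynomial (ZMod p))).1 - 1 = A ^ (p ^ k) from hpow,
    ← Nat.sub_add_cancel hk, pow_add, pow_mul, hAn, smul_pow, mul_smul_comm, Matrix.smul_apply,
    smul_eq_mul]
  exact dvd_mul_right _ _

theorem odd_card_gm (hn : 3 ≤ n) (hp : Odd p) : Odd (Nat.card (Gm p n m)) := by
  obtain ⟨r, hr⟩ := (IsPGroup.iff_card).1 (isPGroup_gm (p := p) (m := m) hn)
  rw [hr]
  exact hp.pow

theorem mem_bd_of_invariant {i : ℕ} (hn : 3 ≤ n) (hm : 2 ≤ m) (hp : Odd p) (hi : 1 ≤ i)
    {c : Sparse.Ch (Vert (hInf p n))} (hc : Cyc (NGam p n m) (IsFace (hInf p n)) i c)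
    (hinv : ∀ g : GamInf p n,
      act g c - c ∈ Bd (NGam p n m) (Vert (hInf p n)) (IsFace (hInf p n)) i) :
    c ∈ Bd (NGam p n m) (Vert (hInf p n)) (IsFace (hInf p n)) i := by
  have : Fintype (Gm p n m) := Fintype.ofFinite _
  choose gl hgl using toGm_surjective p n m
  obtain ⟨hc1, hc2⟩ := hc
  let typ : Vert (hInf p n) → Fin n := Sigma.fst
  let T : Ch (Fin n) →ₗ[ZMod 2] Ch (Vert (hInf p n)) :=
    Finsupp.linearCombination (ZMod 2) fun τ =>
      ∑ x : Gm p n m, Finsupp.single (τ.image (pt (hInf p n) (gl x))) 1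
  have hptinj : ∀ a : GamInf p n, Function.Injective (pt (hInf p n) a) :=
    fun a l l' h => congrArg Sigma.fst h
  have himg : ∀ (h a : GamInf p n) (τ : Finset (Fin n)),
      img h (τ.image (pt (hInf p n) a)) = τ.image (pt (hInf p n) (h * a)) := fun h a τ => by
    rw [img, image_image]
    exact image_congr fun l _ => smul_pt h a l
  -- the sum over the lifts is the transfer of the image in the simplex
  have hS : ∑ x : Gm p n m, act (gl x) c + T (push typ c) ∈ Rel (NGam p n m) _ := by
    suffices h : ∀ x ∈ Cs (IsFace (hInf p n)) i,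
        (∑ y : Gm p n m, act (gl y) + T ∘ₗ push typ : Ch _ →ₗ[ZMod 2] Ch _) x ∈
          Rel (NGam p n m) (Vert (hInf p n)) by
      simpa using h c hc1
    intro x hx
    refine map_mem_of_cs (fun σ hσ _ => ?_) hx
    obtain ⟨a, ha⟩ := hσ
    set τ := σ.image typ with hτ
    have hστ : σ = τ.image (pt (hInf p n) a) := by
      rw [hτ, image_image]
      exact image_id.symm.trans (image_congr fun v hv => ha v hv)
    simp only [LinearMap.add_apply, LinearMap.coe_sum, Finset.sum_apply, LinearMap.comp_apply,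
      push, Finsupp.lmapDomain_apply, Finsupp.mapDomain_single, T,
      Finsupp.linearCombination_single, one_smul]
    rw [← hτ, ← Fintype.sum_equiv (Equiv.mulRight (toGm p n m a))
      (fun y => (Finsupp.single (τ.image (pt (hInf p n) (gl (y * toGm p n m a)))) 1 : Ch _))
      (fun y => Finsupp.single (τ.image (pt (hInf p n) (gl y))) 1) (fun y => rfl),
      ← sum_add_distrib]
    refine sum_mem fun y _ => ?_
    have hker : gl y * a * (gl (y * toGm p n m a))⁻¹ ∈ NGam p n m := by
      rw [MonoidHom.mem_ker, map_mul, map_mul, map_inv, hgl, hgl, mul_inv_cancel]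
    have := gen_mem_rel (⟨_, hker⟩ : NGam p n m)
      (τ.image (pt (hInf p n) (gl (y * toGm p n m a))))
    rwa [img_coe, himg, inv_mul_cancel_right, ← himg, ← hστ, ← act_single] at this
  -- in the simplex the image bounds
  have hinj : ∀ σ, IsFace (hInf p n) σ → Set.InjOn typ (σ : Set (Vert (hInf p n))) := by
    rintro σ ⟨a, ha⟩ v hv w hw e
    rw [ha v hv, ha w hw, show v.1 = w.1 from e]
  have hcyc : bd (push typ c) = 0 := by
    rw [bd_push typ hinj hc1]
    refine push_rel typ (G := NGam p n m) (fun h v => ?_) hc2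
    rfl
  set y0 : Ch (Fin n) := cone ⟨0, by omega⟩ (push typ c) with hy0
  have hy0bd : bd y0 = push typ c := bd_cone_of_cycle _ hcyc
  have hTbd : ∀ y : Ch (Fin n), bd (T y) = T (bd y) := by
    intro y
    refine lhom_ext_single (L := bd ∘ₗ T) (L' := T ∘ₗ bd) (fun τ => ?_) y
    simp only [LinearMap.comp_apply, T, Finsupp.linearCombination_single, one_smul, map_sum,
      bd_single]
    rw [sum_comm]
    refine sum_congr rfl fun x _ => ?_
    rw [sum_image (hptinj _).injOn]
    exact sum_congr rfl fun l _ => by rw [image_erase (hptinj _)]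
  have hy : T y0 ∈ Cs (IsFace (hInf p n)) (i + 1) := by
    have hy0cs : y0 ∈ Cs (fun _ : Finset (Fin n) => True) (i + 1) := by
      refine (Finsupp.mem_supported _ _).2 fun τ hτ => ⟨trivial, ?_⟩
      obtain ⟨ρ, hρ, hv, rfl⟩ := mem_support_cone hτ
      obtain ⟨σ, hσ, rfl⟩ := mem_image.1 (Finsupp.mapDomain_support hρ)
      obtain ⟨hF, hcard⟩ := (Finsupp.mem_supported _ _).1 hc1 hσ
      rw [card_insert_of_notMem hv, card_image_of_injOn (hinj σ hF), hcard]
    refine map_mem_of_cs (fun τ _ hτ => ?_) hy0cs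
    simp only [T, Finsupp.linearCombination_single, one_smul]
    refine sum_mem fun x _ => single_mem_cs ⟨gl x, fun v hv => ?_⟩
      (by rw [card_image_of_injective _ (hptinj _), hτ])
    obtain ⟨l, -, rfl⟩ := mem_image.1 hv
    rfl
  have hsum : ∑ x : Gm p n m, act (gl x) c ∈
      Bd (NGam p n m) (Vert (hInf p n)) (IsFace (hInf p n)) i := by
    rw [show ∑ x : Gm p n m, act (gl x) c =
      bd (T y0) + (∑ x : Gm p n m, act (gl x) c + T (push typ c)) by
        rw [hTbd, hy0bd, add_left_comm, add_self_eq_zero', add_zero]]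
    exact Submodule.add_mem_sup (Submodule.mem_map_of_mem hy) hS
  have hdiff : ∑ x : Gm p n m, (act (gl x) c - c) = ∑ x : Gm p n m, act (gl x) c + c := by
    obtain ⟨r, hr⟩ := odd_card_gm (p := p) (m := m) hn hp
    rw [Nat.card_eq_fintype_card] at hr
    rw [sum_sub_distrib, sum_const, card_univ, hr, add_smul, one_smul, mul_comm, mul_smul,
      two_nsmul, add_self_eq_zero', smul_zero, zero_add, sub_eq_add2]
  have := sub_mem (sum_mem fun x (_ : x ∈ univ) => hinv (gl x)) hsum
  rwa [hdiff, add_sub_cancel_left] at this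

end Vale.Agent.P067.Alld.Van
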