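import Vale.Agent.P067.Alld.Van.Conj
import Vale.Agent.P067.Alld.Van.Chase
import Vale.Agent.P067.Alld.Van.Unip.Uni

/-!
P067, part I: row and column groups fix the classes coming from a smaller kernel.
-/

namespace Vale.Agent.P067.Alld.Van

open Matrix

variable {p n m : ℕ} [Fact p.Prime]

/-- An element of a square zero group normalised by the stabiliser fixes the class. -/
theorem fixed_of_uni {D i : ℕ} (C : Ctx p n m D) (hi : i ≤ D)
    {τ : Finset (FPair (Polynomial (ZMod p)) n)}
    {z : Sparse.Ch (Vert (hInf p n))} (hz : z ∈ Cs (IsFace (hInf p n)) i)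
    (hbd : Sparse.bd z ∈ Rel (Chase.stab (NGam p n m) τ) (Vert (hInf p n)))
    (V : AddSubgroup (Matrix (Fin n) (Fin n) (Polynomial (ZMod p))))
    (hV : ∀ a ∈ V, ∀ b ∈ V, a * b = 0)
    (hst : ∀ h ∈ Chase.stab (NGam p n m) τ, ∀ N ∈ V,
      (h : GamInf p n).1.1 * N * ((h : GamInf p n).1⁻¹).1 ∈ V)
    {u : SLA p n} (hu : u ∈ uni V hV) : Fixed C i z u := by
  intro f hf
  set G₀ := Chase.stab (NGam p n m) τ
  set φ : NGam p n m →* SLA p n := (GamInf p n).subtype.comp (NGam p n m).subtype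
  set A : Subgroup (NGam p n m) := (uni V hV).comap φ
  have hm1 : 1 ≤ m := by have := C.hm; omega
  have cxN : Cx (NGam p n m) (IsFace (hInf p n)) := cx_restrict cx_delta _
  have hconj : ∀ g : G₀, ∀ a ∈ A, (g : NGam p n m) * a * (g : NGam p n m)⁻¹ ∈ A := by
    intro g a ha
    rw [Subgroup.mem_comap, map_mul, map_mul, map_inv, mem_uni, coe_conj_sub_one]
    exact hst _ g.2 _ ((mem_uni (hV := hV)).1 ha)
  -- the two maps agree modulo `A` on the stabiliser
  have hf' : IsMap A G₀.subtype (IsFace (hInf p n)) (IsFace (hInf p n)) (D + 1) f := by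
    refine ⟨fun g x => ?_, hf.mem, hf.comm, hf.empty⟩
    have e := hf.equiv (g : NGam p n m) x
    rw [mem_rel_bot, sub_eq_zero] at e
    set k : NGam p n m := conjN C.hn hm1 u g * (g : NGam p n m)⁻¹ with hk
    have hkA : k ∈ A := by
      rw [Subgroup.mem_comap, hk, map_mul, map_inv,
        show φ (conjN C.hn hm1 u g) = u * φ (g : NGam p n m) * u⁻¹ from rfl,
        mul_assoc u, mul_assoc u]
      refine mul_mem hu ?_
      rw [mem_uni, coe_conj_sub_one]
      exact hst _ g.2 _ (mem_uni.1 (inv_mem hu))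
    have e1 : act (conjN C.hn hm1 u g) (f x) = act k (act (g : NGam p n m) (f x)) := by
      rw [← act_mul, hk, inv_mul_cancel_right]
    have h := act_add_self_mem_rel (⟨k, hkA⟩ : A) (act (g : NGam p n m) (f x))
    rw [act_coe] at h
    rw [act_coe g x, e, e1, sub_eq_add2]
    exact h
  -- the group `A` is locally finite of odd order
  have hA : LFOdd A := by
    intro s hs
    set W : Submodule (ZMod p) (Matrix (Fin n) (Fin n) (Polynomial (ZMod p))) :=
      Submodule.span (ZMod p) ((fun x : NGam p n m => (φ x).1 - 1) '' (s : Set (NGam p n m)))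
    have hV' : ∀ a ∈ V ⊓ W.toAddSubgroup, ∀ b ∈ V ⊓ W.toAddSubgroup, a * b = 0 :=
      fun a ha b hb => hV a ha.1 b hb.1
    refine ⟨(uni (V ⊓ W.toAddSubgroup) hV').comap φ, fun x hx => hx.1,
      fun x hx => ⟨hs x hx, Submodule.subset_span ⟨x, hx, rfl⟩⟩, ?_⟩
    set B := (uni (V ⊓ W.toAddSubgroup) hV').comap φ
    have : Module.Finite (ZMod p) W :=
      Module.Finite.iff_fg.2 (Submodule.fg_span (s.finite_toSet.image _))
    have : Finite W := Module.finite_of_finite (ZMod p)
    have hfin : Finite B := Finite.of_injective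
      (fun x : B => (⟨(φ x).1 - 1, x.2.2⟩ : W)) fun x y e => by
        have e' : (φ x).1 = (φ y).1 := sub_left_inj.1 (congrArg Subtype.val e)
        exact Subtype.ext (Subtype.ext (Subtype.ext (Subtype.ext e')))
    refine ⟨hfin, ?_⟩
    have hP : IsPGroup p B := fun x => ⟨1, by
      apply Subtype.ext
      apply Subtype.ext
      apply Subtype.ext
      apply Subtype.ext
      have e := pow_sub_one_of_mem_uni
        (show φ (x : NGam p n m) ∈ uni (V ⊓ W.toAddSubgroup) hV' from x.2) p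
      rw [← map_pow] at e
      rw [← Nat.cast_smul_eq_nsmul (ZMod p), ZMod.natCast_self, zero_smul, sub_eq_zero] at e
      rw [pow_one]
      exact e⟩
    obtain ⟨k, hk⟩ := IsPGroup.iff_card.1 hP
    exact hk ▸ C.odd.pow
  have h := homotopic (B := ⊤) G₀.subtype (cx_restrict cxN G₀) cxN
    (fun σ hσ h1 h2 g hg => Subtype.ext (free_delta C.hm (D + 1) σ hσ h1 h2 (g : NGam p n m) hg))
    (fun j hj => van_of_lfOdd cxN hA C.ac hj) hconj le_top (fun _ => Subgroup.mem_top _)
    hf' (isMap_id A cxN) (show i ≤ D + 1 by omega) hz hbd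
  exact (sup_le_sup le_rfl (rel_le ⊤) :
    Bd (⊤ : Subgroup (NGam p n m)) (Vert (hInf p n)) (IsFace (hInf p n)) i ≤
      Bd (NGam p n m) (Vert (hInf p n)) (IsFace (hInf p n)) i) h

theorem stdFrame_one (R : Type) [CommRing R] (hn : 1 ≤ n) :
    stdFrame R n 1 = {stdPair R (⟨n - 1, by omega⟩ : Fin n)} := by
  rw [stdFrame, show (Finset.univ.filter fun i : Fin n => n - 1 ≤ (i : ℕ)) =
    {(⟨n - 1, by omega⟩ : Fin n)} from ?_, Finset.image_singleton]
  ext x
  simp only [Finset.mem_filter, Finset.mem_univ, true_and, Finset.mem_singleton, Fin.ext_iff]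
  omega

/-- Classes supported by the stabiliser of one pair are fixed by all of `SL_n(F[t])`. -/
theorem fixed_vertex {D i : ℕ} (C : Ctx p n m D) (hi : i ≤ D)
    {τ : Finset (FPair (Polynomial (ZMod p)) n)} (hτ : IsFrame τ) (hτ1 : τ.card = 1)
    {z : Sparse.Ch (Vert (hInf p n))} (hz : z ∈ Cs (IsFace (hInf p n)) i)
    (hbd : Sparse.bd z ∈ Rel (Chase.stab (NGam p n m) τ) (Vert (hInf p n)))
    (u : SLA p n) : Fixed C i z u := by
  have hn := C.hn
  obtain ⟨S, hS⟩ := exists_fixedGroup C hi (c := z) ⟨hz, rel_le _ hbd⟩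
  rw [← hS]
  obtain ⟨g, hg⟩ := exists_smul_stdFrame hτ hτ1
  rw [stdFrame_one _ (by omega), Finset.image_singleton] at hg
  set c : Fin n := ⟨n - 1, by omega⟩
  set w := g • stdPair (Polynomial (ZMod p)) c
  have hfix : ∀ h ∈ Chase.stab (NGam p n m) τ, (h : GamInf p n).1 • w = w := by
    intro h hh
    have e : img h τ = τ := hh
    rw [hg] at e
    exact Finset.singleton_injective ((Finset.image_singleton _ _).symm.trans e)
  have hcol : ∀ {j : Fin n} (h : j ≠ c) (f : Polynomial (ZMod p)), g * tv h f * g⁻¹ ∈ S :=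
    fun h f => (hS _).2 (fixed_of_uni C hi hz hbd _ (colV_sq _)
      (fun x hx N hN => colV_conj w (hfix x hx) hN) (conj_tv_col h f g))
  have hrow : ∀ {j : Fin n} (h : c ≠ j) (f : Polynomial (ZMod p)), g * tv h f * g⁻¹ ∈ S :=
    fun h f => (hS _).2 (fixed_of_uni C hi hz hbd _ (rowV_sq _)
      (fun x hx N hN => rowV_conj w (hfix x hx) hN) (conj_tv_row h f g))
  set T : Subgroup (SLA p n) := S.comap (MulAut.conj g).toMonoidHom
  have hmem : ∀ x, x ∈ T ↔ g * x * g⁻¹ ∈ S := fun x => by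
    rw [Subgroup.mem_comap, MulEquiv.coe_toMonoidHom, MulAut.conj_apply]
  have hT : T = ⊤ := by
    refine eq_top_iff.2 (closure_transvection.ge.trans ((Subgroup.closure_le T).2 ?_))
    rintro x ⟨a, b, hab, f, hx⟩
    obtain rfl : x = tv hab f := Subtype.ext hx
    by_cases hb : b = c
    · subst hb; exact (hmem _).2 (hcol hab f)
    by_cases ha : a = c
    · subst ha; exact (hmem _).2 (hrow hab f)
    rw [tv_comm hab ha (Ne.symm hb) f]
    exact mul_mem (mul_mem (mul_mem ((hmem _).2 (hcol ha f))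
      ((hmem _).2 (hrow (Ne.symm hb) 1))) ((hmem _).2 (hcol ha (-f))))
      ((hmem _).2 (hrow (Ne.symm hb) (-1)))
  have hu : g⁻¹ * u * g ∈ T := by rw [hT]; exact Subgroup.mem_top _
  rw [hmem, show g * (g⁻¹ * u * g) * g⁻¹ = u by group] at hu
  exact hu

end Vale.Agent.P067.Alld.Van
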