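import Vale.Agent.P067.Alld.Van.Block
import Vale.Agent.P067.Alld.Van.Unip
import Vale.Agent.P067.Alld.Van.Transfer
import Vale.Agent.P067.Alld.Van.Push
import Vale.Agent.P067.Alld.Van.Nbr

/-!
P067, part I: the cohomology of `K_m` vanishes through the range.
-/

namespace Vale.Agent.P067.Alld.Van

open Finset Sparse

variable {p n m : ℕ} [Fact p.Prime]

/-- The frame complex is invariant under the kernel. -/
theorem cx_frame :
    Cx (NGam p n m) (IsFrame (R := Polynomial (ZMod p)) (n := n)) where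
  inv g σ hσ := isFrame_smul g.1.1 hσ
  down σ τ h hσ := ⟨(card_le_card h).trans hσ.1, fun w hw w' hw' => hσ.2 w (h hw) w' (h hw')⟩
  empty := ⟨by simp, by simp⟩

theorem pt_isFace (l : Fin n) : IsFace (hInf p n) {pt (hInf p n) 1 l} :=
  ⟨1, fun v hv => by rw [mem_singleton.1 hv]; rfl⟩

theorem van_zero (hn : 1 ≤ n) : Van (NGam p n m) (IsFace (hInf p n)) 0 := by
  intro c hc _
  refine Submodule.mem_sup_left ?_
  refine Chase.cs_induction (P := fun c => c ∈ (Cs (IsFace (hInf p n)) (0 + 1)).map bd) (zero_mem _)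
    (fun x y hx hy => add_mem hx hy) (fun σ _ hσ => ?_) hc
  refine ⟨Finsupp.single {pt (hInf p n) 1 ⟨0, hn⟩} 1,
    Chase.single_mem_cs (pt_isFace _) (card_singleton _) 1, ?_⟩
  rw [card_eq_zero.1 hσ, bd_single, sum_singleton, erase_singleton]

/-- One step of the induction. -/
theorem van_step {D i : ℕ} (C : Ctx p n m D) (hi1 : 1 ≤ i) (hi : i ≤ D)
    (hS : Acyc (IsFrame (R := Polynomial (ZMod p)) (n := n)) D)
    (hSR : Acyc (IsFrame (R := Rm p m) (n := n)) D)
    (hcol : ∀ a b, 1 ≤ a → 2 ≤ b → a + b = i + 1 → b + 3 ≤ n ∧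
      Acyc (IsFace (hInf p (n - b))) (D + 1) ∧
      Van (NGam p (n - b) m) (IsFace (hInf p (n - b))) a) :
    Van (NGam p n m) (IsFace (hInf p n)) i := by
  intro c hc hbd
  have hm : 1 ≤ m := by have := C.hm; omega
  have hn : 1 ≤ n := by have := C.hn; omega
  have data : Chase.Data (NGam p n m) (IsFace (hInf p n))
      (IsFrame (R := Polynomial (ZMod p)) (n := n)) i :=
    { hF := cx_nGam
      hS := cx_frame
      free := free_delta C.hm _
      vert := ⟨_, pt_isFace ⟨0, hn⟩⟩
      acS := fun b hb j hj => hS j (by omega)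
      vanS := van_of_acyc (FPair.map (red p m))
        (fun g w => map_smul_of_mem_ker ((mem_nGam_iff g.1).1 g.2) w)
        (fun σ hσ => (isFrame_map hm hσ).1) (cx_frame (m := m)).down
        (fun τ hτ => exists_lift_frame hm hτ) (fun σ hσ => (isFrame_map hm hσ).2)
        (fun σ τ hσ hτ _ _ h => by
          obtain ⟨g, hg, hgσ⟩ := exists_ker_smul hm hσ hτ h
          exact ⟨⟨⟨g, ker_le_gam C.hn hm hg⟩, (mem_nGam_iff _).2 hg⟩, hgσ⟩) hi hSR
      col := fun a b ha hb hab τ hτ hτb =>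
        van_stab C (by omega) (hcol a b ha hb hab).1 (hcol a b ha hb hab).2.1
          (hcol a b ha hb hab).2.2 hτ hτb }
  obtain ⟨s, z, hz, hsum⟩ := Chase.main data hc hbd
  refine mem_bd_of_invariant C.hn C.hm C.odd hi1 ⟨hc, hbd⟩ fun g => ?_
  set r := c + ∑ τ ∈ s, z τ with hr
  have hc' : c = r + ∑ τ ∈ s, z τ := by rw [hr, add_assoc, add_self_eq_zero', add_zero]
  rw [hc', map_add, map_sum, add_sub_add_comm, ← sum_sub_distrib]
  refine add_mem (Submodule.mem_sup_right (sub_mem ?_ hsum)) (Submodule.sum_mem _ fun τ hτ => ?_)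
  · exact act_mem_rel (fun a ha => (inferInstance : (NGam p n m).Normal).conj_mem a ha g) hsum
  · obtain ⟨hτf, hτ1, hzc, hzb⟩ := hz τ hτ
    exact act_mem_bd_of_fixed C hi ⟨hzc, rel_le _ hzb⟩ g
      (fixed_vertex C hi hτf hτ1 hzc hzb g.1)

theorem exists_max (f : ℕ → ℕ) (n : ℕ) : ∃ P, ∀ k ≤ n, f k ≤ P :=
  ⟨∑ k ∈ range (n + 1), f k, fun k hk =>
    single_le_sum (fun _ _ => Nat.zero_le _) (mem_range.2 (Nat.lt_succ_of_le hk))⟩

/-- Part I. -/
theorem vanishStmt (hac : DeltaAcyclicStmt) : VanishStmt := by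
  intro d
  obtain ⟨B, hB⟩ := exists_bound_acyc d
  obtain ⟨n₁, hn₁⟩ := acyc_delta hac (d + 1)
  choose! P hP using hn₁
  set M := n₁ + 2 * B + d + 5 with hM
  refine ⟨M + d * (d + 2), fun n hn => ?_⟩
  obtain ⟨p₁, hp₁⟩ := exists_max P n
  refine ⟨p₁ + 3, fun p _ hp m hm => ?_⟩
  have hodd : Odd p := (Fact.out : p.Prime).odd_of_ne_two (by omega)
  have hA : ∀ k, M ≤ k → k ≤ n → Acyc (IsFace (hInf p k)) (d + 1) := fun k hk hkn =>
    hP k (by omega) p ((hp₁ k hkn).trans (by omega))
  have key : ∀ i ≤ d, ∀ k, M + i * (d + 2) ≤ k → k ≤ n →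
      Van (NGam p k m) (IsFace (hInf p k)) i := by
    intro i
    induction i using Nat.strong_induction_on with
    | _ i ih =>
      intro hid k hk hkn
      rcases Nat.eq_zero_or_pos i with rfl | hi
      · exact van_zero (by omega)
      have hcard : ∀ {V : Type} (s : Finset V), s.card ≤ B → 2 * s.card < k := fun s hs => by omega
      refine van_step (D := d) ⟨by omega, hm, hodd, hA k (by omega) hkn⟩ hi hid
        (hB Orth (k - 1) (by omega) fun s hs => exists_common s (hcard s hs))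
        (hB Orth (k - 1) (by omega) fun s hs => exists_common_red (by omega) s (hcard s hs))
        fun a b ha hb hab => ?_
      have h1 : a * (d + 2) + (d + 2) ≤ i * (d + 2) := by
        rw [← Nat.succ_mul]; exact Nat.mul_le_mul_right _ (by omega)
      exact ⟨by omega, hA _ (by omega) (by omega), ih a (by omega) (by omega) _ (by omega) (by omega)⟩
  intro k hk1 hkd
  have hd : ∀ j ≤ d, Van (NGam p n m) (IsFace (hInf p n)) j := fun j hj => key j hj n
    (le_trans (Nat.add_le_add_left (Nat.mul_le_mul_right _ hj) _) hn) le_rfl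
  refine exact_ktops (by omega) ?_ hk1 hkd
  exact acyc_of_van (proj p n m) proj_smul (fun σ hσ => proj_injOn hσ) cx_delta.down
    (fun τ hτ => proj_lift hτ) (fun σ hσ => proj_isFace hσ)
    (fun j _ σ τ hσ hτ _ _ h => proj_fibre hm hσ hτ h) hd

end Vale.Agent.P067.Alld.Van
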